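import Vale.Agent.P356.PH.LRabs749
import Vale.Agent.P356.SV.Lattice
import Mathlib.Analysis.Normed.Module.FiniteDimension

/-!
The operator norm and the local algebras: interface for the Heisenberg evolution.
-/

set_option linter.all false

namespace Vale.Agent.P356.PH

open Matrix Finset Vale.Agent.P356 Vale.Agent.P356.SV Vale.Agent.P356.Path
open scoped BigOperators ComplexOrder Kronecker Matrix.Norms.L2Operator

section norm
variable {N : Type*} [Fintype N] [DecidableEq N]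

theorem ph_nsq_eq (ψ : N → ℂ) : nsq ψ = ‖(WithLp.toLp 2 ψ : EuclideanSpace ℂ N)‖ ^ 2 := by
  rw [EuclideanSpace.norm_sq_eq]
  rfl

theorem ph_nsq_mulVec_le (A : Matrix N N ℂ) (ψ : N → ℂ) : nsq (A *ᵥ ψ) ≤ ‖A‖ ^ 2 * nsq ψ := by
  have h := Matrix.l2_opNorm_mulVec A (WithLp.toLp 2 ψ : EuclideanSpace ℂ N)
  rw [ph_nsq_eq, ph_nsq_eq, ← mul_pow]
  exact pow_le_pow_left₀ (norm_nonneg _) h 2

theorem ph_norm_le {A : Matrix N N ℂ} {J : ℝ} (hJ : 0 ≤ J) (h : OpNormLe A J) : ‖A‖ ≤ J := by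
  rw [Matrix.cstar_norm_def]
  refine ContinuousLinearMap.opNorm_le_bound _ hJ fun x => ?_
  have h1 := h (WithLp.ofLp x)
  rw [ph_nsq_eq, ph_nsq_eq, ← mul_pow] at h1
  exact le_of_sq_le_sq h1 (by positivity)

theorem ph_opNormLe {A : Matrix N N ℂ} {J : ℝ} (h : ‖A‖ ≤ J) : OpNormLe A J := by
  intro ψ
  refine (ph_nsq_mulVec_le A ψ).trans ?_
  refine mul_le_mul_of_nonneg_right ?_ (Finset.sum_nonneg fun i _ => by positivity)
  exact pow_le_pow_left₀ (norm_nonneg _) h 2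

theorem ph_opNormLe_iff {A : Matrix N N ℂ} {J : ℝ} (hJ : 0 ≤ J) : OpNormLe A J ↔ ‖A‖ ≤ J :=
  ⟨ph_norm_le hJ, ph_opNormLe⟩

theorem ph_opNormLe_abs {A : Matrix N N ℂ} {J : ℝ} (h : OpNormLe A J) : ‖A‖ ≤ |J| := by
  refine ph_norm_le (abs_nonneg J) fun ψ => ?_
  rw [sq_abs]
  exact h ψ

theorem ph_isSelfAdjoint {A : Matrix N N ℂ} (h : A.IsHermitian) : IsSelfAdjoint A := h

theorem ph_isHermitian {A : Matrix N N ℂ} (h : IsSelfAdjoint A) : A.IsHermitian := h

end norm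

section acts
variable {V : Type*} [Fintype V] [DecidableEq V] {q : ℕ}

theorem ph_acts_opOn (X : Finset V) (k : Op {x // x ∈ X} q) : ActsOn X (opOn X k) := by
  refine ⟨k, fun s t => ⟨fun h => ?_, fun h => ?_⟩⟩
  · rw [opOn_apply, if_pos h, mul_one]
  · rw [opOn_apply, if_neg, mul_zero]
    intro hc
    obtain ⟨x, hx, hne⟩ := h
    exact hne (hc x hx)

theorem ph_acts_iff {X : Finset V} {A : Op V q} :
    ActsOn X A ↔ ∃ k : Op {x // x ∈ X} q, A = opOn X k :=
  ⟨b5_actsOn, fun ⟨k, hk⟩ => hk ▸ ph_acts_opOn X k⟩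

theorem ph_acts_zero (X : Finset V) : ActsOn X (0 : Op V q) :=
  ph_acts_iff.2 ⟨0, by rw [opOn, opL_zero]⟩

theorem ph_acts_one (X : Finset V) : ActsOn X (1 : Op V q) :=
  ph_acts_iff.2 ⟨1, (opOn_one X).symm⟩

theorem ph_acts_add {X : Finset V} {A B : Op V q} (hA : ActsOn X A) (hB : ActsOn X B) :
    ActsOn X (A + B) := by
  obtain ⟨k, rfl⟩ := ph_acts_iff.1 hA
  obtain ⟨l, rfl⟩ := ph_acts_iff.1 hB
  exact ph_acts_iff.2 ⟨k + l, (opOn_add X k l).symm⟩

theorem ph_acts_sub {X : Finset V} {A B : Op V q} (hA : ActsOn X A) (hB : ActsOn X B) :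
    ActsOn X (A - B) := by
  obtain ⟨k, rfl⟩ := ph_acts_iff.1 hA
  obtain ⟨l, rfl⟩ := ph_acts_iff.1 hB
  exact ph_acts_iff.2 ⟨k - l, (opOn_sub X k l).symm⟩

theorem ph_acts_mul {X : Finset V} {A B : Op V q} (hA : ActsOn X A) (hB : ActsOn X B) :
    ActsOn X (A * B) := by
  obtain ⟨k, rfl⟩ := ph_acts_iff.1 hA
  obtain ⟨l, rfl⟩ := ph_acts_iff.1 hB
  exact ph_acts_iff.2 ⟨k * l, (opOn_mul X k l).symm⟩

theorem ph_acts_smul {X : Finset V} {A : Op V q} (c : ℂ) (hA : ActsOn X A) : ActsOn X (c • A) := by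
  obtain ⟨k, rfl⟩ := ph_acts_iff.1 hA
  exact ph_acts_iff.2 ⟨c • k, (opL_smul _ c k).symm⟩

theorem ph_acts_rsmul {X : Finset V} {A : Op V q} (c : ℝ) (hA : ActsOn X A) : ActsOn X (c • A) := by
  have h : (c : ℝ) • A = (c : ℂ) • A := by
    ext s t; simp
  rw [h]
  exact ph_acts_smul _ hA

theorem ph_acts_neg {X : Finset V} {A : Op V q} (hA : ActsOn X A) : ActsOn X (-A) := by
  have h := ph_acts_smul (-1) hA
  rwa [neg_one_smul] at h

theorem ph_acts_star {X : Finset V} {A : Op V q} (hA : ActsOn X A) : ActsOn X Aᴴ := by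
  obtain ⟨k, rfl⟩ := ph_acts_iff.1 hA
  exact ph_acts_iff.2 ⟨kᴴ, opOn_conjTranspose X k⟩

theorem ph_acts_sum {ι : Type*} {X : Finset V} (s : Finset ι) {A : ι → Op V q}
    (hA : ∀ i ∈ s, ActsOn X (A i)) : ActsOn X (∑ i ∈ s, A i) := by
  classical
  induction s using Finset.induction_on with
  | empty => rw [Finset.sum_empty]; exact ph_acts_zero X
  | insert i s hi ih =>
    rw [Finset.sum_insert hi]
    exact ph_acts_add (hA i (Finset.mem_insert_self i s))
      (ih fun j hj => hA j (Finset.mem_insert_of_mem hj))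

theorem ph_acts_mono {X Y : Finset V} (hXY : X ⊆ Y) {A : Op V q} (hA : ActsOn X A) :
    ActsOn Y A := by
  classical
  obtain ⟨k, hk⟩ := hA
  refine ⟨fun a b => if (∀ y : {y // y ∈ Y}, y.1 ∉ X → a y = b y) then
    k (fun x => a ⟨x.1, hXY x.2⟩) (fun x => b ⟨x.1, hXY x.2⟩) else 0, fun s t => ⟨fun h => ?_,
    fun h => ?_⟩⟩
  · by_cases hc : ∀ y : {y // y ∈ Y}, y.1 ∉ X → s y = t y
    · refine Eq.trans ((hk s t).1 fun x hx => ?_) (if_pos hc).symm
      by_cases hxY : x ∈ Y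
      · exact hc ⟨x, hxY⟩ hx
      · exact h x hxY
    · refine Eq.trans ((hk s t).2 ?_) (if_neg hc).symm
      push Not at hc
      obtain ⟨y, hy, hne⟩ := hc
      exact ⟨y.1, hy, hne⟩
  · obtain ⟨x, hx, hne⟩ := h
    exact (hk s t).2 ⟨x, fun hx' => hx (hXY hx'), hne⟩

theorem ph_acts_univ (A : Op V q) : ActsOn Finset.univ A := by
  classical
  refine ⟨fun a b => A (fun x => a ⟨x, Finset.mem_univ x⟩) (fun x => b ⟨x, Finset.mem_univ x⟩),
    fun s t => ⟨fun h => rfl, fun h => ?_⟩⟩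
  obtain ⟨x, hx, _⟩ := h
  exact absurd (Finset.mem_univ x) hx

theorem ph_acts_comm {X Y : Finset V} (hXY : Disjoint X Y) {A B : Op V q} (hA : ActsOn X A)
    (hB : ActsOn Y B) : Commute A B := by
  obtain ⟨k, rfl⟩ := ph_acts_iff.1 hA
  obtain ⟨l, rfl⟩ := ph_acts_iff.1 hB
  exact opOn_comm X Y hXY k l

/-- the inclusion of the local algebra as a ring homomorphism -/
noncomputable def phIncl (X : Finset V) (q : ℕ) : Op {x // x ∈ X} q →ₐ[ℂ] Op V q where
  toFun := opOn X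
  map_one' := opOn_one X
  map_mul' := opOn_mul X
  map_zero' := by rw [opOn, opL_zero]
  map_add' := opOn_add X
  commutes' := fun c => by
    rw [Algebra.algebraMap_eq_smul_one, Algebra.algebraMap_eq_smul_one, opOn, opL_smul, opL_one]

theorem phIncl_apply (X : Finset V) (k : Op {x // x ∈ X} q) : phIncl X q k = opOn X k := rfl

theorem phIncl_continuous (X : Finset V) (q : ℕ) : Continuous (phIncl X q) :=
  (phIncl X q).toLinearMap.continuous_of_finiteDimensional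

theorem ph_acts_exp {X : Finset V} {A : Op V q} (hA : ActsOn X A) :
    ActsOn X (NormedSpace.exp A) := by
  obtain ⟨k, rfl⟩ := ph_acts_iff.1 hA
  letI : NormedAlgebra ℚ (Op {x // x ∈ X} q) := NormedAlgebra.restrictScalars ℚ ℝ _
  letI : Algebra ℚ (Op V q) := (NormedAlgebra.restrictScalars ℚ ℝ (Op V q)).toAlgebra
  have h := NormedSpace.map_exp (phIncl X q) (phIncl_continuous X q) k
  rw [phIncl_apply, phIncl_apply] at h
  rw [← h]
  exact ph_acts_opOn X _

theorem ph_acts_phU {X : Finset V} {H : Op V q} (hH : ActsOn X H) (t : ℝ) :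
    ActsOn X (phU H t) := by
  rw [phU]
  exact ph_acts_exp (ph_acts_rsmul t (ph_acts_smul _ hH))

theorem ph_acts_phTau {X : Finset V} {H A : Op V q} (hH : ActsOn X H) (hA : ActsOn X A) (t : ℝ) :
    ActsOn X (phTau H t A) := by
  rw [phTau]
  exact ph_acts_mul (ph_acts_mul (ph_acts_phU hH t) hA) (ph_acts_phU hH (-t))

/-- the local algebras are closed -/
theorem ph_acts_isClosed (X : Finset V) (q : ℕ) : IsClosed {A : Op V q | ActsOn X A} := by
  have h : {A : Op V q | ActsOn X A} = ((phIncl X q).toLinearMap.range : Set (Op V q)) := by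
    ext A
    rw [Set.mem_setOf_eq, ph_acts_iff]
    constructor
    · rintro ⟨k, rfl⟩
      exact ⟨k, rfl⟩
    · rintro ⟨k, hk⟩
      exact ⟨k, hk.symm⟩
  rw [h]
  exact Submodule.closed_of_finiteDimensional _

theorem ph_acts_tendsto {X : Finset V} {ι : Type*} {l : Filter ι} [l.NeBot] {F : ι → Op V q}
    {A : Op V q} (h : Filter.Tendsto F l (nhds A)) (hF : ∀ i, ActsOn X (F i)) : ActsOn X A :=
  (ph_acts_isClosed X q).mem_of_tendsto h (Filter.Eventually.of_forall hF)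

/-- the local algebra as a closed submodule -/
noncomputable def phSub (X : Finset V) (q : ℕ) : Submodule ℂ (Op V q) :=
  (phIncl X q).toLinearMap.range

theorem ph_mem_phSub {X : Finset V} {A : Op V q} : A ∈ phSub X q ↔ ActsOn X A := by
  rw [ph_acts_iff]
  constructor
  · rintro ⟨k, hk⟩
    exact ⟨k, hk.symm⟩
  · rintro ⟨k, rfl⟩
    exact ⟨k, rfl⟩

end acts

end Vale.Agent.P356.PH
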