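import Vale.Agent.P356.PH.Defs
import Vale.Agent.P356.PH.Mat749

/-!
P1: the Heisenberg evolution of matrices (blueprint names).
-/

set_option linter.all false

namespace Vale.Agent.P356.PH

open Matrix Finset Vale.Agent.P356 Vale.Agent.P356.SV Vale.Agent.P356.Path
open scoped BigOperators ComplexOrder Kronecker Matrix.Norms.L2Operator

section P1
variable {N : Type*} [Fintype N] [DecidableEq N]

theorem opNormLe_iff {M : Matrix N N ℂ} {c : ℝ} (hc : 0 ≤ c) : OpNormLe M c ↔ ‖M‖ ≤ c :=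
  ph_opNormLe_iff hc

theorem nsq_mulVec_le (M : Matrix N N ℂ) (ψ : N → ℂ) : nsq (M *ᵥ ψ) ≤ ‖M‖ ^ 2 * nsq ψ :=
  ph_nsq_mulVec_le M ψ

theorem ev_eq (H : Matrix N N ℂ) (t : ℝ) (A : Matrix N N ℂ) : ev H t A = phTau H t A := by
  have h1 : ((t : ℂ) * Complex.I) • H = t • (Complex.I • H) := by
    rw [mul_smul]
    rfl
  have h2 : (-((t : ℂ) * Complex.I)) • H = (-t) • (Complex.I • H) := by
    rw [neg_smul, neg_smul, h1]
  rw [ev, phTau, phU, phU, h1, h2]

theorem ev_norm {H : Matrix N N ℂ} (hH : H.IsHermitian) (t : ℝ) (A : Matrix N N ℂ) :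
    ‖ev H t A‖ = ‖A‖ := by
  rw [ev_eq]
  exact phTau_norm hH t A

theorem ev_herm {H A : Matrix N N ℂ} (hH : H.IsHermitian) (hA : A.IsHermitian) (t : ℝ) :
    (ev H t A).IsHermitian := by
  rw [ev_eq]
  exact phTau_isSelfAdjoint (𝔸 := Matrix N N ℂ) hH t hA

theorem ev_zero (H A : Matrix N N ℂ) : ev H 0 A = A := by
  rw [ev_eq]
  exact phTau_zero_time H A

theorem ev_sum {ι : Type*} (H : Matrix N N ℂ) (t : ℝ) (s : Finset ι) (A : ι → Matrix N N ℂ) :
    ev H t (∑ i ∈ s, A i) = ∑ i ∈ s, ev H t (A i) := by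
  simp only [ev_eq]
  exact phTau_sum H t s A

theorem ev_hasDerivAt (H A : Matrix N N ℂ) (t : ℝ) :
    HasDerivAt (fun t : ℝ => ev H t A) (ev H t (Complex.I • (H * A - A * H))) t := by
  simp only [ev_eq]
  exact phTau_hasDerivAt H A t

theorem ev_cont (H A : Matrix N N ℂ) : Continuous (fun t : ℝ => ev H t A) := by
  simp only [ev_eq]
  exact phTau_continuous H A

/-- the evolution commutes with the commutator by the Hamiltonian -/
theorem ev_comm (H A : Matrix N N ℂ) (t : ℝ) :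
    H * ev H t A - ev H t A * H = ev H t (H * A - A * H) := by
  simp only [ev_eq]
  rw [phTau_sub, phTau_mul, phTau_mul, phTau_self]

theorem ev_actsOn {V : Type*} [Fintype V] [DecidableEq V] {q : ℕ} {S : Finset V} {H A : Op V q}
    (hH : ActsOn S H) (hA : ActsOn S A) (t : ℝ) : ActsOn S (ev H t A) := by
  rw [ev_eq]
  exact ph_acts_phTau hH hA t

theorem ev_sub (H : Matrix N N ℂ) (t : ℝ) (A B : Matrix N N ℂ) :
    ev H t (A - B) = ev H t A - ev H t B := by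
  simp only [ev_eq]
  exact phTau_sub H t A B

theorem ev_add (H : Matrix N N ℂ) (t : ℝ) (A B : Matrix N N ℂ) :
    ev H t (A + B) = ev H t A + ev H t B := by
  simp only [ev_eq]
  exact phTau_add H t A B

theorem ev_smul (H : Matrix N N ℂ) (t : ℝ) (c : ℂ) (A : Matrix N N ℂ) :
    ev H t (c • A) = c • ev H t A := by
  simp only [ev_eq]
  exact phTau_smul H t c A

theorem ev_mul (H : Matrix N N ℂ) (t : ℝ) (A B : Matrix N N ℂ) :
    ev H t (A * B) = ev H t A * ev H t B := by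
  simp only [ev_eq]
  exact phTau_mul H t A B

theorem ev_of_commute {H A : Matrix N N ℂ} (h : Commute A H) (t : ℝ) : ev H t A = A := by
  rw [ev_eq]
  exact phTau_of_commute h t

/-- `‖M ψ‖ ≤ ‖M‖ ‖ψ‖` for the inner product form -/
theorem dot_le (M : Matrix N N ℂ) (φ ψ : N → ℂ) :
    ‖star φ ⬝ᵥ (M *ᵥ ψ)‖ ≤ ‖M‖ * (Real.sqrt (nsq φ) * Real.sqrt (nsq ψ)) := by
  have h1 : star φ ⬝ᵥ (M *ᵥ ψ) = inner ℂ (WithLp.toLp 2 φ : EuclideanSpace ℂ N)
      (WithLp.toLp 2 (M *ᵥ ψ) : EuclideanSpace ℂ N) := by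
    rw [PiLp.inner_apply, dotProduct]
    refine Finset.sum_congr rfl fun i _ => ?_
    simp [mul_comm]
  have h2 : ∀ v : N → ℂ, Real.sqrt (nsq v) = ‖(WithLp.toLp 2 v : EuclideanSpace ℂ N)‖ := fun v => by
    rw [ph_nsq_eq, Real.sqrt_sq (norm_nonneg _)]
  rw [h1, h2, h2]
  refine (norm_inner_le_norm _ _).trans ?_
  have h3 := Matrix.l2_opNorm_mulVec M (WithLp.toLp 2 ψ : EuclideanSpace ℂ N)
  calc ‖(WithLp.toLp 2 φ : EuclideanSpace ℂ N)‖ *
      ‖(WithLp.toLp 2 (M *ᵥ ψ) : EuclideanSpace ℂ N)‖ ≤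
      ‖(WithLp.toLp 2 φ : EuclideanSpace ℂ N)‖ *
      (‖M‖ * ‖(WithLp.toLp 2 ψ : EuclideanSpace ℂ N)‖) :=
        mul_le_mul_of_nonneg_left h3 (norm_nonneg _)
    _ = _ := by ring

end P1

end Vale.Agent.P356.PH
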