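import Vale.Agent.P356.PH.Defs

/-!
Operators acting on a region: closure properties.
-/

set_option linter.all false

namespace Vale.Agent.P356.PH

open Matrix Finset Vale.Agent.P356 Vale.Agent.P356.SV Vale.Agent.P356.Path
open scoped BigOperators ComplexOrder Kronecker

section
variable {V : Type*} [Fintype V] [DecidableEq V] {q : ℕ}

theorem act_iff {X : Finset V} {h : Op V q} : ActsOn X h ↔ ∃ k : Op {x // x ∈ X} q, h = opOn X k := by
  constructor
  · exact b5_actsOn
  · rintro ⟨k, rfl⟩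
    refine ⟨k, fun s t => ⟨fun hst => ?_, fun hst => ?_⟩⟩
    · rw [opOn_apply, if_pos hst, mul_one]
    · rw [opOn_apply, if_neg, mul_zero]
      intro hc
      obtain ⟨x, hx, hne⟩ := hst
      exact hne (hc x hx)

theorem act_opOn (X : Finset V) (k : Op {x // x ∈ X} q) : ActsOn X (opOn X k) := act_iff.mpr ⟨k, rfl⟩

theorem act_add {X : Finset V} {h h' : Op V q} (H : ActsOn X h) (H' : ActsOn X h') :
    ActsOn X (h + h') := by
  rw [act_iff] at *
  obtain ⟨k, rfl⟩ := H
  obtain ⟨k', rfl⟩ := H'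
  exact ⟨k + k', (opOn_add X k k').symm⟩

theorem act_sub {X : Finset V} {h h' : Op V q} (H : ActsOn X h) (H' : ActsOn X h') :
    ActsOn X (h - h') := by
  rw [act_iff] at *
  obtain ⟨k, rfl⟩ := H
  obtain ⟨k', rfl⟩ := H'
  exact ⟨k - k', (opOn_sub X k k').symm⟩

theorem act_mul {X : Finset V} {h h' : Op V q} (H : ActsOn X h) (H' : ActsOn X h') :
    ActsOn X (h * h') := by
  rw [act_iff] at *
  obtain ⟨k, rfl⟩ := H
  obtain ⟨k', rfl⟩ := H'
  exact ⟨k * k', (opOn_mul X k k').symm⟩

theorem act_smul {X : Finset V} {h : Op V q} (c : ℂ) (H : ActsOn X h) : ActsOn X (c • h) := by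
  rw [act_iff] at *
  obtain ⟨k, rfl⟩ := H
  exact ⟨c • k, (opL_smul _ _ _).symm⟩

theorem act_zero (X : Finset V) : ActsOn X (0 : Op V q) :=
  act_iff.mpr ⟨0, (opL_zero _).symm⟩

theorem act_one (X : Finset V) : ActsOn X (1 : Op V q) :=
  act_iff.mpr ⟨1, (opOn_one X).symm⟩

theorem act_neg {X : Finset V} {h : Op V q} (H : ActsOn X h) : ActsOn X (-h) := by
  have := act_sub (act_zero X) H
  rwa [zero_sub] at this

theorem act_sum {X : Finset V} {ι : Type*} (s : Finset ι) (h : ι → Op V q)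
    (H : ∀ i ∈ s, ActsOn X (h i)) : ActsOn X (∑ i ∈ s, h i) := by
  classical
  induction s using Finset.induction_on with
  | empty => simpa using act_zero X
  | insert a s ha ih =>
    rw [Finset.sum_insert ha]
    exact act_add (H a (Finset.mem_insert_self a s))
      (ih fun i hi => H i (Finset.mem_insert_of_mem hi))

theorem act_conjTranspose {X : Finset V} {h : Op V q} (H : ActsOn X h) : ActsOn X hᴴ := by
  rw [act_iff] at *
  obtain ⟨k, rfl⟩ := H
  exact ⟨kᴴ, opOn_conjTranspose X k⟩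

theorem act_mono {X Y : Finset V} (hXY : X ⊆ Y) {h : Op V q} (H : ActsOn X h) : ActsOn Y h := by
  obtain ⟨k, hk⟩ := H
  classical
  refine ⟨fun a b => if ∀ x : {x // x ∈ Y}, x.1 ∉ X → a x = b x then
    k (fun x => a ⟨x.1, hXY x.2⟩) (fun x => b ⟨x.1, hXY x.2⟩) else 0, fun s t => ⟨fun hst => ?_,
    fun hst => ?_⟩⟩
  · by_cases hc : ∀ x : {x // x ∈ Y}, x.1 ∉ X → s x.1 = t x.1
    · refine Eq.trans ((hk s t).1 fun x hx => ?_) (if_pos hc).symm
      by_cases hy : x ∈ Y
      · exact hc ⟨x, hy⟩ hx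
      · exact hst x hy
    · refine Eq.trans ?_ (if_neg hc).symm
      push Not at hc
      obtain ⟨x, hx, hne⟩ := hc
      exact (hk s t).2 ⟨x.1, hx, hne⟩
  · obtain ⟨x, hx, hne⟩ := hst
    exact (hk s t).2 ⟨x, fun hx' => hx (hXY hx'), hne⟩

/-- operators on disjoint regions commute -/
theorem act_comm {X Y : Finset V} (hXY : Disjoint X Y) {h h' : Op V q} (H : ActsOn X h)
    (H' : ActsOn Y h') : h * h' = h' * h := by
  obtain ⟨k, rfl⟩ := act_iff.mp H
  obtain ⟨k', rfl⟩ := act_iff.mp H'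
  exact opOn_comm X Y hXY k k'

end

section
variable {L q R : ℕ} {J : ℝ} {g : Finset (Site L) → Op (Site L) q}

theorem Terms.act_HB (hg : Terms L q R J g) (B : Finset (Site L)) : ActsOn B (NA.HB g B) := by
  unfold NA.HB
  refine act_sum _ _ fun X hX => ?_
  exact act_mono (Finset.mem_filter.mp hX).2 (hg.loc X)

theorem Terms.herm_sum (hg : Terms L q R J g) (s : Finset (Finset (Site L))) :
    (∑ X ∈ s, g X).IsHermitian := by
  unfold Matrix.IsHermitian
  rw [Matrix.conjTranspose_sum]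
  exact Finset.sum_congr rfl fun X _ => (hg.herm X).eq

theorem Terms.herm_HB (hg : Terms L q R J g) (B : Finset (Site L)) : (NA.HB g B).IsHermitian :=
  hg.herm_sum _

theorem Terms.act_Hr (hg : Terms L q R J g) (x : Site L) (r : ℕ) : ActsOn (ball x r) (Hr g x r) :=
  hg.act_HB _

theorem Terms.herm_Hr (hg : Terms L q R J g) (x : Site L) (r : ℕ) : (Hr g x r).IsHermitian :=
  hg.herm_HB _

/-- a large ball is everything -/
theorem ball_univ (x : Site L) {r : ℕ} (hr : 2 * L ≤ r) : ball x r = Finset.univ := by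
  ext z
  simp only [ball, Finset.mem_filter, Finset.mem_univ, true_and, iff_true]
  unfold dist1
  have h1 := z.1.isLt
  have h2 := z.2.isLt
  have h3 := x.1.isLt
  have h4 := x.2.isLt
  omega

theorem Hr_univ (g : Finset (Site L) → Op (Site L) q) (x : Site L) {r : ℕ} (hr : 2 * L ≤ r) :
    Hr g x r = ∑ X, g X := by
  unfold Hr NA.HB
  rw [ball_univ x hr]
  simp

theorem ball_mono (x : Site L) {r s : ℕ} (h : r ≤ s) : ball x r ⊆ ball x s := by
  intro z hz
  simp only [ball, Finset.mem_filter, Finset.mem_univ, true_and] at *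
  omega

theorem subset_ball {X : Finset (Site L)} {x : Site L} (hx : x ∈ X)
    (hX : ∀ y ∈ X, ∀ z ∈ X, dist1 y z ≤ R) {r : ℕ} (hr : R ≤ r) : X ⊆ ball x r := by
  intro z hz
  simp only [ball, Finset.mem_filter, Finset.mem_univ, true_and]
  exact (hX z hz x hx).trans hr

end

end Vale.Agent.P356.PH
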