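import Vale.Agent.P356.SV.Lattice
import Vale.Agent.P356.NA.Defs
import Mathlib.Analysis.CStarAlgebra.Matrix
import Mathlib.Analysis.Normed.Algebra.MatrixExponential
import Mathlib.Analysis.SpecialFunctions.Exponential
import Mathlib.MeasureTheory.Integral.IntervalIntegral.Basic
import Mathlib.MeasureTheory.Integral.Bochner.Basic

/-!
Definitions for the stability of the area law along gapped paths of Hamiltonians.
-/

set_option linter.all false

namespace Vale.Agent.P356.PH

open Matrix Finset Vale.Agent.P356 Vale.Agent.P356.SV Vale.Agent.P356.Path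
open scoped BigOperators ComplexOrder Kronecker Matrix.Norms.L2Operator

/-- a family of local terms of range `R` and strength `J` -/
structure Terms (L q R : ℕ) (J : ℝ) (g : Finset (Site L) → Op (Site L) q) : Prop where
  herm : ∀ X, (g X).IsHermitian
  loc : ∀ X, ActsOn X (g X)
  norm : ∀ X, OpNormLe (g X) J
  range : ∀ X, g X ≠ 0 → X.Nonempty ∧ ∀ x ∈ X, ∀ y ∈ X, dist1 x y ≤ R

/-- A path of gapped Hamiltonians, Lipschitz in each term. -/
structure GappedPath (L q R : ℕ) (J Δ ℓ : ℝ) (h : ℝ → Finset (Site L) → Op (Site L) q)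
    (E : ℝ → ℝ) (Ω : ℝ → Conf (Site L) q → ℂ) : Prop where
  terms : ∀ t, 0 ≤ t → t ≤ 1 → Terms L q R J (h t)
  gap : ∀ t, 0 ≤ t → t ≤ 1 → GappedGround (∑ X, h t X) Δ (E t) (Ω t)
  lip : ∀ s t, 0 ≤ s → s ≤ t → t ≤ 1 → ∀ X, OpNormLe (h t X - h s X) (ℓ * (t - s))

section mat
variable {N : Type*} [Fintype N] [DecidableEq N]

/-- Heisenberg evolution `e^{itH} A e^{-itH}` -/
noncomputable def ev (H : Matrix N N ℂ) (t : ℝ) (A : Matrix N N ℂ) : Matrix N N ℂ :=
  NormedSpace.exp (((t : ℂ) * Complex.I) • H) * A *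
    NormedSpace.exp ((-((t : ℂ) * Complex.I)) • H)

/-- A real filter function: integral one, all moments, and the Fourier transform vanishes at all
frequencies of modulus at least `Δ`. -/
structure IsFilter (Δ : ℝ) (w : ℝ → ℝ) : Prop where
  cont : Continuous w
  mom : ∀ k : ℕ, MeasureTheory.Integrable (fun t => |t| ^ k * |w t|)
  int : ∫ t, w t = 1
  win : ∀ ξ : ℝ, Δ ≤ |ξ| → ∫ t, (w t : ℂ) * Complex.exp ((ξ : ℂ) * t * Complex.I) = 0

/-- The generator `D(V) = ∫ w(t) ∫_0^t τ_u(V) du dt`. -/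
noncomputable def DD (w : ℝ → ℝ) (H V : Matrix N N ℂ) : Matrix N N ℂ :=
  ∫ t : ℝ, ((w t : ℝ) : ℂ) • ∫ u in (0 : ℝ)..t, ev H u V

end mat

/-- constant of the Lieb-Robinson bound -/
noncomputable def kap (R : ℕ) (J : ℝ) : ℝ := 2 * J * ((2 * R + 1) ^ 2 * NR R)

/-- the Hamiltonian restricted to the ball of radius `r` around `x` -/
noncomputable def Hr {L q : ℕ} (g : Finset (Site L) → Op (Site L) q) (x : Site L) (r : ℕ) :
    Op (Site L) q := NA.HB g (ball x r)

/-- regularised eigenvalue -/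
noncomputable def reg (d ε p : ℝ) : ℝ := (p + ε) / (1 + ε * d)

/-- Minus the logarithm of the regularised reduced state of the region `A`. -/
noncomputable def GG {V : Type*} [Fintype V] [DecidableEq V] {q : ℕ} (A : Finset V)
    (Ω : Conf V q → ℂ) (ε : ℝ) : Op V q :=
  opOn A (fOp (Ω ∘ (cut A q).symm) (fun i =>
    -Real.log (reg ((q : ℝ) ^ A.card) ε (eigp (Ω ∘ (cut A q).symm) i))))

end Vale.Agent.P356.PH
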