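import Vale.Agent.P356.PH.Defs
import Vale.Agent.P356.SV.Tilt1

set_option linter.all false

/-!
Second order perturbation step (abstract form).
-/

namespace Vale.Agent.P356.PH

open Matrix Finset Vale.Agent.P356 Vale.Agent.P356.SV Vale.Agent.P356.Path
open scoped BigOperators ComplexOrder Kronecker Matrix.Norms.L2Operator

section P5
variable {N : Type*} [Fintype N] [DecidableEq N]

theorem p5_nrm_eq (v : N → ℂ) : nrm v = ‖(WithLp.toLp 2 v : EuclideanSpace ℂ N)‖ := by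
  rw [EuclideanSpace.norm_eq]
  rfl

theorem p5_nrm_mulVec (M : Matrix N N ℂ) (v : N → ℂ) : nrm (M *ᵥ v) ≤ ‖M‖ * nrm v := by
  have h := Matrix.l2_opNorm_mulVec M (WithLp.toLp 2 v : EuclideanSpace ℂ N)
  rw [p5_nrm_eq, p5_nrm_eq]
  exact h

theorem p5_form_le (M : Matrix N N ℂ) (u v : N → ℂ) :
    ‖star u ⬝ᵥ (M *ᵥ v)‖ ≤ ‖M‖ * (nrm u * nrm v) := by
  refine (nrm_ip_le u (M *ᵥ v)).trans ?_
  calc nrm u * nrm (M *ᵥ v) ≤ nrm u * (‖M‖ * nrm v) :=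
        mul_le_mul_of_nonneg_left (p5_nrm_mulVec M v) (nrm_nonneg u)
    _ = ‖M‖ * (nrm u * nrm v) := by ring

theorem p5_ip_star (u v : N → ℂ) : star v ⬝ᵥ u = star (star u ⬝ᵥ v) := by
  rw [← star_dotProduct]

theorem p5_swap {G : Matrix N N ℂ} (hG : G.IsHermitian) (u v : N → ℂ) :
    star v ⬝ᵥ (G *ᵥ u) = star (star u ⬝ᵥ (G *ᵥ v)) := by
  rw [← star_dotProduct, ip_mulVec, hG.eq]

theorem p5_real {G : Matrix N N ℂ} (hG : G.IsHermitian) (u : N → ℂ) :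
    star u ⬝ᵥ (G *ᵥ u) = (((star u ⬝ᵥ (G *ᵥ u)).re : ℝ) : ℂ) := by
  have h := p5_swap hG u u
  rw [RCLike.star_def] at h
  exact (Complex.conj_eq_iff_real.1 h.symm).elim fun r hr => by rw [hr, Complex.ofReal_re]

/-- expansion of a Hermitian form at a sum -/
theorem p5_form_add {G : Matrix N N ℂ} (hG : G.IsHermitian) (u v : N → ℂ) :
    (star (u + v) ⬝ᵥ (G *ᵥ (u + v))).re = (star u ⬝ᵥ (G *ᵥ u)).re +
      2 * (star u ⬝ᵥ (G *ᵥ v)).re + (star v ⬝ᵥ (G *ᵥ v)).re := by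
  have h : star (u + v) ⬝ᵥ (G *ᵥ (u + v)) =
      star u ⬝ᵥ (G *ᵥ u) + star u ⬝ᵥ (G *ᵥ v) + star v ⬝ᵥ (G *ᵥ u) + star v ⬝ᵥ (G *ᵥ v) := by
    rw [star_add, mulVec_add, add_dotProduct, dotProduct_add, dotProduct_add]
    ring
  have h2 := congrArg Complex.re h
  have h3 := congrArg Complex.re (p5_swap hG u v)
  simp only [RCLike.star_def, Complex.conj_re] at h3
  simp only [Complex.add_re] at h2
  linarith

theorem p5_nrm_one {v : N → ℂ} (h : nsq v = 1) : nrm v = 1 := by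
  rw [nrm, h, Real.sqrt_one]

/-- the near-eigenvector equation -/
theorem p5_eq {H H' D : Matrix N N ℂ} {E : ℝ} {Ω : N → ℂ} (hΩ : H *ᵥ Ω = (E : ℂ) • Ω)
    (hV : (H' - H).IsHermitian)
    (hD : Complex.I • ((H * D - D * H) *ᵥ Ω) =
      (star Ω ⬝ᵥ ((H' - H) *ᵥ Ω)) • Ω - (H' - H) *ᵥ Ω) :
    H' *ᵥ (Ω + Complex.I • (D *ᵥ Ω)) =
      ((E + (star Ω ⬝ᵥ ((H' - H) *ᵥ Ω)).re : ℝ) : ℂ) • (Ω + Complex.I • (D *ᵥ Ω)) +
      Complex.I • ((H' - H) *ᵥ (D *ᵥ Ω) -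
        (((star Ω ⬝ᵥ ((H' - H) *ᵥ Ω)).re : ℝ) : ℂ) • (D *ᵥ Ω)) := by
  have hv := p5_real hV Ω
  set v0 : ℝ := (star Ω ⬝ᵥ ((H' - H) *ᵥ Ω)).re with hv0
  rw [hv] at hD
  have hD' : Complex.I • (H *ᵥ (D *ᵥ Ω)) = Complex.I • ((E : ℂ) • (D *ᵥ Ω)) +
      ((v0 : ℂ) • Ω - (H' - H) *ᵥ Ω) := by
    rw [← hD, Matrix.sub_mulVec, ← Matrix.mulVec_mulVec, ← Matrix.mulVec_mulVec, hΩ,
      Matrix.mulVec_smul, ← smul_add]
    congr 1
    abel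
  have e1 : H' *ᵥ (Ω + Complex.I • (D *ᵥ Ω)) = H *ᵥ Ω + (H' - H) *ᵥ Ω +
      (Complex.I • (H *ᵥ (D *ᵥ Ω)) + Complex.I • ((H' - H) *ᵥ (D *ᵥ Ω))) := by
    rw [Matrix.mulVec_add, Matrix.mulVec_smul, Matrix.sub_mulVec, Matrix.sub_mulVec, ← smul_add]
    congr 1
    · abel
    · congr 1
      abel
  rw [e1, hD', hΩ]
  ext i
  simp only [Pi.add_apply, Pi.sub_apply, Pi.smul_apply, smul_eq_mul, Complex.ofReal_add]
  ring

/-- the abstract second order step -/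
theorem p5_step {H H' D G : Matrix N N ℂ} {E E' Δ M δ : ℝ} {Ω Ω' : N → ℂ} (hΔ : 0 < Δ)
    (hM : 0 ≤ M) (hδ : ‖H' - H‖ ≤ δ) (hδ4 : δ ≤ Δ / 4)
    (hH : H.IsHermitian) (hH' : H'.IsHermitian) (hDh : D.IsHermitian) (hG : G.IsHermitian)
    (hDn : ‖D‖ ≤ M * δ) (h0 : GappedGround H Δ E Ω) (h1 : GappedGround H' Δ E' Ω')
    (hD : Complex.I • ((H * D - D * H) *ᵥ Ω) =
      (star Ω ⬝ᵥ ((H' - H) *ᵥ Ω)) • Ω - (H' - H) *ᵥ Ω) :
    (star Ω' ⬝ᵥ (G *ᵥ Ω')).re ≤ (star Ω ⬝ᵥ (G *ᵥ Ω)).re +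
        (star Ω ⬝ᵥ ((Complex.I • (G * D - D * G)) *ᵥ Ω)).re +
        (6 * M ^ 2 + 8 * M / Δ) * ‖G‖ * δ ^ 2 := by
  have hV : (H' - H).IsHermitian := hH'.sub hH
  have hδ0 : 0 ≤ δ := (norm_nonneg _).trans hδ
  have heq := p5_eq h0.2.1 hV hD
  set v0 : ℝ := (star Ω ⬝ᵥ ((H' - H) *ᵥ Ω)).re with hv0
  set x : N → ℂ := D *ᵥ Ω with hx
  set φ : N → ℂ := Ω + Complex.I • x with hφ
  set r : N → ℂ := Complex.I • ((H' - H) *ᵥ x - (v0 : ℂ) • x) with hr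
  set α : ℂ := star Ω' ⬝ᵥ φ with hα
  set ψ : N → ℂ := φ - α • Ω' with hψ
  have n0 : nrm Ω = 1 := p5_nrm_one h0.1
  have n1 : nrm Ω' = 1 := p5_nrm_one h1.1
  -- size of the first order term
  have hxn : nrm x ≤ M * δ := by
    refine (p5_nrm_mulVec D Ω).trans ?_
    rw [n0, mul_one]
    exact hDn
  have hv0a : |v0| ≤ δ := by
    refine (Complex.abs_re_le_norm _).trans ?_
    refine (p5_form_le (H' - H) Ω Ω).trans ?_
    rw [n0, mul_one, mul_one]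
    exact hδ
  have hrn : nrm r ≤ 2 * M * δ ^ 2 := by
    rw [hr, nrm_smul, Complex.norm_I, one_mul]
    refine (nrm_sub_le _ _).trans ?_
    have h1 : nrm ((H' - H) *ᵥ x) ≤ δ * (M * δ) :=
      (p5_nrm_mulVec _ _).trans (mul_le_mul hδ hxn (nrm_nonneg _) hδ0)
    have h2 : nrm ((v0 : ℂ) • x) ≤ δ * (M * δ) := by
      rw [nrm_smul, Complex.norm_real, Real.norm_eq_abs]
      exact mul_le_mul hv0a hxn (nrm_nonneg _) hδ0
    nlinarith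
  -- norm of φ
  have hφn : nsq φ = 1 + nsq x := by
    rw [hφ, nsq_add, h0.1, nsq_smul, Complex.norm_I, one_pow, one_mul, dotProduct_smul,
      p5_real hDh Ω]
    simp
  -- orthogonality
  have ho1 : star Ω' ⬝ᵥ ψ = 0 := by
    rw [hψ, dotProduct_sub, dotProduct_smul, ip_self, h1.1, ← hα]
    simp
  have ho2 : star ψ ⬝ᵥ Ω' = 0 := by
    rw [p5_ip_star, ho1, star_zero]
  have hφψ : φ = α • Ω' + ψ := by
    rw [hψ]
    abel
  have hαψ : nsq φ = ‖α‖ ^ 2 + nsq ψ := by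
    rw [hφψ, nsq_add, nsq_smul, h1.1, star_smul, smul_dotProduct, ho1]
    simp
  -- lower bound of the new ground energy
  have hE' : E - δ ≤ E' := by
    have g1 := h0.2.2 Ω'
    have g2 : ‖star Ω ⬝ᵥ Ω'‖ ≤ 1 := by
      refine (nrm_ip_le _ _).trans ?_
      rw [n0, n1, mul_one]
    have g3 : (star Ω' ⬝ᵥ (H' *ᵥ Ω')).re = E' := by
      rw [h1.2.1, dotProduct_smul, ip_self, h1.1]
      simp
    have g4 : -δ ≤ (star Ω' ⬝ᵥ ((H' - H) *ᵥ Ω')).re := by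
      have := (Complex.abs_re_le_norm (star Ω' ⬝ᵥ ((H' - H) *ᵥ Ω'))).trans
        (p5_form_le (H' - H) Ω' Ω')
      rw [n1, mul_one, mul_one] at this
      exact (abs_le.1 (this.trans hδ)).1
    rw [Matrix.sub_mulVec, dotProduct_sub, Complex.sub_re, g3] at g4
    rw [h1.1] at g1
    have g5 : 0 ≤ Δ * (1 - ‖star Ω ⬝ᵥ Ω'‖ ^ 2) := by
      refine mul_nonneg hΔ.le ?_
      have := pow_le_one₀ (n := 2) (norm_nonneg _) g2
      linarith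
    linarith
  -- component orthogonal to the new ground state
  have hψn : nrm ψ ≤ 4 * M * δ ^ 2 / Δ := by
    have g1 := h1.2.2 ψ
    rw [ho1, norm_zero] at g1
    have g2 : H' *ᵥ ψ = ((E + v0 : ℝ) : ℂ) • ψ +
        ((((E + v0 : ℝ) : ℂ) * α - α * (E' : ℂ)) • Ω' + r) := by
      rw [hψ, Matrix.mulVec_sub, heq, Matrix.mulVec_smul, h1.2.1]
      ext i
      simp only [Pi.add_apply, Pi.sub_apply, Pi.smul_apply, smul_eq_mul]
      ring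
    have g3 : (star ψ ⬝ᵥ (H' *ᵥ ψ)).re = (E + v0) * nsq ψ + (star ψ ⬝ᵥ r).re := by
      rw [g2, dotProduct_add, dotProduct_add, dotProduct_smul, dotProduct_smul, ho2, ip_self]
      simp
    have g4 : (star ψ ⬝ᵥ r).re ≤ nrm ψ * nrm r :=
      (Complex.re_le_norm _).trans (nrm_ip_le _ _)
    have g5 : Δ / 2 * nsq ψ ≤ nrm ψ * nrm r := by
      have g6 : v0 ≤ δ := (abs_le.1 hv0a).2
      have g7 : 0 ≤ (Δ / 2 + (E' - (E + v0))) * nsq ψ :=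
        mul_nonneg (by linarith) (nsq_nonneg' ψ)
      nlinarith
    rw [← nrm_sq] at g5
    rcases (nrm_nonneg ψ).eq_or_lt with h | h
    · rw [← h]
      positivity
    · have g8 : Δ / 2 * nrm ψ ≤ nrm r := by
        have : nrm ψ * (Δ / 2 * nrm ψ) ≤ nrm ψ * nrm r := by nlinarith
        exact le_of_mul_le_mul_left this h
      rw [le_div_iff₀ hΔ]
      nlinarith
  have hψn2 : nrm ψ ≤ M * δ := by
    refine hψn.trans ?_
    rw [div_le_iff₀ hΔ]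
    nlinarith [mul_nonneg hM hδ0]
  have hαn : ‖α‖ ≤ 1 + M * (Δ / 4) := by
    have g1 : ‖α‖ ≤ nrm φ := by
      refine (nrm_ip_le _ _).trans ?_
      rw [n1, one_mul]
    refine g1.trans ((nrm_add_le _ _).trans ?_)
    rw [n0, nrm_smul, Complex.norm_I, one_mul]
    have := mul_le_mul_of_nonneg_left hδ4 hM
    linarith
  -- expectations
  set a : ℝ := (star Ω' ⬝ᵥ (G *ᵥ Ω')).re with ha
  have haa : |a| ≤ ‖G‖ := by
    refine (Complex.abs_re_le_norm _).trans ?_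
    refine (p5_form_le G Ω' Ω').trans ?_
    rw [n1, mul_one, mul_one]
  have hG0 : 0 ≤ ‖G‖ := norm_nonneg G
  -- first expansion
  have e1 : (star φ ⬝ᵥ (G *ᵥ φ)).re = (star Ω ⬝ᵥ (G *ᵥ Ω)).re +
      (star Ω ⬝ᵥ ((Complex.I • (G * D - D * G)) *ᵥ Ω)).re + (star x ⬝ᵥ (G *ᵥ x)).re := by
    rw [hφ, p5_form_add hG]
    have k1 : (star (Complex.I • x) ⬝ᵥ (G *ᵥ (Complex.I • x))) = star x ⬝ᵥ (G *ᵥ x) := by
      rw [star_smul, smul_dotProduct, Matrix.mulVec_smul, dotProduct_smul, smul_smul]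
      simp
    have k2 : 2 * (star Ω ⬝ᵥ (G *ᵥ (Complex.I • x))).re =
        (star Ω ⬝ᵥ ((Complex.I • (G * D - D * G)) *ᵥ Ω)).re := by
      have k3 : star Ω ⬝ᵥ (D *ᵥ (G *ᵥ Ω)) = star (star Ω ⬝ᵥ (G *ᵥ x)) := by
        rw [← p5_swap hG Ω x, hx, ip_mulVec, hDh.eq]
      rw [Matrix.smul_mulVec, Matrix.sub_mulVec, dotProduct_smul, dotProduct_sub,
        ← Matrix.mulVec_mulVec, ← Matrix.mulVec_mulVec, ← hx, k3, Matrix.mulVec_smul,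
        dotProduct_smul]
      simp only [smul_eq_mul, Complex.mul_re, Complex.I_re, Complex.I_im, Complex.sub_im,
        Complex.sub_re, RCLike.star_def, Complex.conj_im, Complex.conj_re]
      ring
    rw [k1, k2]
  -- second expansion
  have e2 : (star φ ⬝ᵥ (G *ᵥ φ)).re = ‖α‖ ^ 2 * a +
      2 * (star (α • Ω') ⬝ᵥ (G *ᵥ ψ)).re + (star ψ ⬝ᵥ (G *ᵥ ψ)).re := by
    rw [hφψ, p5_form_add hG]
    have k1 : (star (α • Ω') ⬝ᵥ (G *ᵥ (α • Ω'))).re = ‖α‖ ^ 2 * a := by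
      rw [star_smul, smul_dotProduct, Matrix.mulVec_smul, dotProduct_smul, smul_smul,
        p5_real hG Ω', ← ha, smul_eq_mul]
      rw [RCLike.star_def, ← Complex.normSq_eq_conj_mul_self, ← Complex.ofReal_mul,
        Complex.ofReal_re, Complex.normSq_eq_norm_sq]
    rw [k1]
  have b1 : |(star x ⬝ᵥ (G *ᵥ x)).re| ≤ ‖G‖ * (M * δ) ^ 2 := by
    refine (Complex.abs_re_le_norm _).trans ((p5_form_le G x x).trans ?_)
    refine mul_le_mul_of_nonneg_left ?_ hG0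
    rw [sq]
    exact mul_le_mul hxn hxn (nrm_nonneg _) (mul_nonneg hM hδ0)
  have b2 : |(star ψ ⬝ᵥ (G *ᵥ ψ)).re| ≤ ‖G‖ * (M * δ) ^ 2 := by
    refine (Complex.abs_re_le_norm _).trans ((p5_form_le G ψ ψ).trans ?_)
    refine mul_le_mul_of_nonneg_left ?_ hG0
    rw [sq]
    exact mul_le_mul hψn2 hψn2 (nrm_nonneg _) (mul_nonneg hM hδ0)
  have b3 : |(star (α • Ω') ⬝ᵥ (G *ᵥ ψ)).re| ≤
      ‖G‖ * ((1 + M * (Δ / 4)) * (4 * M * δ ^ 2 / Δ)) := by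
    refine (Complex.abs_re_le_norm _).trans ((p5_form_le G _ ψ).trans ?_)
    refine mul_le_mul_of_nonneg_left ?_ hG0
    rw [nrm_smul, n1, mul_one]
    exact mul_le_mul hαn hψn (nrm_nonneg _) (by positivity)
  have c1 : nsq x ≤ (M * δ) ^ 2 := by
    rw [← nrm_sq]
    exact pow_le_pow_left₀ (nrm_nonneg _) hxn 2
  have c2 : nsq ψ ≤ (M * δ) ^ 2 := by
    rw [← nrm_sq]
    exact pow_le_pow_left₀ (nrm_nonneg _) hψn2 2
  have c3 : |(nsq x - nsq ψ) * a| ≤ (M * δ) ^ 2 * ‖G‖ := by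
    rw [abs_mul]
    refine mul_le_mul ?_ haa (abs_nonneg _) (sq_nonneg _)
    rw [abs_le]
    constructor
    · have := nsq_nonneg' x
      linarith
    · have := nsq_nonneg' ψ
      linarith
  have d1 : ‖α‖ ^ 2 = 1 + nsq x - nsq ψ := by
    rw [hφn] at hαψ
    linarith
  rw [d1] at e2
  have key : a = (star Ω ⬝ᵥ (G *ᵥ Ω)).re +
      (star Ω ⬝ᵥ ((Complex.I • (G * D - D * G)) *ᵥ Ω)).re + (star x ⬝ᵥ (G *ᵥ x)).re -
      (nsq x - nsq ψ) * a - 2 * (star (α • Ω') ⬝ᵥ (G *ᵥ ψ)).re -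
      (star ψ ⬝ᵥ (G *ᵥ ψ)).re := by
    rw [e1] at e2
    linarith
  have f1 := (abs_le.1 b1).2
  have f2 := (abs_le.1 b2).1
  have f3 := (abs_le.1 b3).1
  have f4 := (abs_le.1 c3).1
  have f5 : ‖G‖ * ((1 + M * (Δ / 4)) * (4 * M * δ ^ 2 / Δ)) =
      (4 * M / Δ + M ^ 2) * ‖G‖ * δ ^ 2 := by
    field_simp
  rw [f5] at f3
  have f6 : (6 * M ^ 2 + 8 * M / Δ) * ‖G‖ * δ ^ 2 = 3 * (‖G‖ * (M * δ) ^ 2) +
      2 * ((4 * M / Δ + M ^ 2) * ‖G‖ * δ ^ 2) + M ^ 2 * ‖G‖ * δ ^ 2 := by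
    ring
  rw [f6]
  have f7 : 0 ≤ M ^ 2 * ‖G‖ * δ ^ 2 := by positivity
  linarith

end P5

end Vale.Agent.P356.PH
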