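import Vale.Agent.P356.PH.DD
import Vale.Agent.P356.PH.StepAbs

/-!
P4g: action of the generator on the ground state (helper124).
-/

set_option linter.all false

namespace Vale.Agent.P356.PH

open Matrix Finset Vale.Agent.P356 Vale.Agent.P356.SV Vale.Agent.P356.Path MeasureTheory
open scoped BigOperators ComplexOrder Kronecker Matrix.Norms.L2Operator

section P4g
variable {N : Type*} [Fintype N] [DecidableEq N] {Δ : ℝ} {w : ℝ → ℝ}

/-- the filtered operator -/
noncomputable def FF124 (w : ℝ → ℝ) (H V : Matrix N N ℂ) : Matrix N N ℂ :=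
  ∫ t : ℝ, ((w t : ℝ) : ℂ) • ev H t V

theorem ff_int (hw : IsFilter Δ w) {H : Matrix N N ℂ} (hH : H.IsHermitian) (V : Matrix N N ℂ) :
    Integrable (fun t : ℝ => ((w t : ℝ) : ℂ) • ev H t V) := by
  have h0 : Integrable (fun t => |w t|) := by
    have h := hw.mom 0
    simpa only [pow_zero, one_mul] using h
  refine Integrable.mono' (h0.mul_const ‖V‖)
    ((Complex.continuous_ofReal.comp hw.cont).smul (ev_cont H V)).aestronglyMeasurable ?_
  refine Filter.Eventually.of_forall fun t => ?_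
  rw [norm_smul, Complex.norm_real, Real.norm_eq_abs, ev_norm hH]

theorem ff_ftc (H V : Matrix N N ℂ) (t : ℝ) :
    (∫ u in (0 : ℝ)..t, ev H u (Complex.I • (H * V - V * H))) = ev H t V - V := by
  have h := intervalIntegral.integral_eq_sub_of_hasDerivAt (f := fun u : ℝ => ev H u V)
    (f' := fun u : ℝ => ev H u (Complex.I • (H * V - V * H))) (a := 0) (b := t)
    (fun u _ => ev_hasDerivAt H V u) (DD_ii H _ 0 t)
  rw [h, ev_zero]

/-- commutator with `H` as a continuous linear map -/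
noncomputable def comL (H : Matrix N N ℂ) : Matrix N N ℂ →L[ℝ] Matrix N N ℂ :=
  (ContinuousLinearMap.mul ℝ (Matrix N N ℂ) H) - (ContinuousLinearMap.mul ℝ (Matrix N N ℂ)).flip H

theorem comL_apply (H B : Matrix N N ℂ) : comL H B = H * B - B * H := rfl

theorem ff_comm (hw : IsFilter Δ w) {H : Matrix N N ℂ} (hH : H.IsHermitian) (V : Matrix N N ℂ) :
    Complex.I • (H * DD w H V - DD w H V * H) = FF124 w H V - V := by
  have h1 : ∀ t : ℝ, comL H (∫ u in (0 : ℝ)..t, ev H u V) =
      ∫ u in (0 : ℝ)..t, ev H u (H * V - V * H) := by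
    intro t
    rw [← ContinuousLinearMap.intervalIntegral_comp_comm (comL H) (DD_ii H V 0 t)]
    simp only [comL_apply, ev_comm]
  have h2 := ContinuousLinearMap.integral_comp_comm (comL H) (DD_integrable hw hH V)
  have h3 : ∀ t : ℝ, Complex.I • comL H (((w t : ℝ) : ℂ) • ∫ u in (0 : ℝ)..t, ev H u V) =
      ((w t : ℝ) : ℂ) • ev H t V - ((w t : ℝ) : ℂ) • V := by
    intro t
    have e1 : comL H (((w t : ℝ) : ℂ) • ∫ u in (0 : ℝ)..t, ev H u V) =
        ((w t : ℝ) : ℂ) • comL H (∫ u in (0 : ℝ)..t, ev H u V) := by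
      simp only [comL_apply, Matrix.mul_smul, Matrix.smul_mul, smul_sub]
    have e2 : (∫ u in (0 : ℝ)..t, ev H u (Complex.I • (H * V - V * H))) =
        Complex.I • ∫ u in (0 : ℝ)..t, ev H u (H * V - V * H) := by
      rw [← intervalIntegral.integral_smul]
      simp only [ev_smul]
    rw [e1, h1, smul_comm, ← e2, ff_ftc, smul_sub]
  have h4 : Complex.I • (H * DD w H V - DD w H V * H) = Complex.I • comL H (DD w H V) := rfl
  have hwi : Integrable (fun t : ℝ => ((w t : ℝ) : ℂ)) := by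
    have h0 : Integrable (fun t => |w t|) := by
      have h := hw.mom 0
      simpa only [pow_zero, one_mul] using h
    exact ((integrable_norm_iff hw.cont.aestronglyMeasurable).1 h0).ofReal
  have h5 : Integrable (fun t : ℝ => ((w t : ℝ) : ℂ) • V) := hwi.smul_const V
  rw [h4, DD, ← h2, ← integral_smul]
  simp only [h3]
  have h6 : (∫ t : ℝ, ((w t : ℝ) : ℂ)) = 1 := by
    have h := integral_complex_ofReal (f := w) (μ := volume)
    rw [hw.int] at h
    rw [h, Complex.ofReal_one]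
  rw [integral_sub (ff_int hw hH V) h5, integral_smul_const, h6, one_smul]
  rfl

theorem exp_mulVec_eig {A : Matrix N N ℂ} {v : N → ℂ} {c : ℂ} (h : A *ᵥ v = c • v) :
    NormedSpace.exp A *ᵥ v = Complex.exp c • v := by
  have hp : ∀ n : ℕ, (A ^ n) *ᵥ v = c ^ n • v := by
    intro n
    induction n with
    | zero => simp
    | succ n ih =>
      rw [pow_succ', ← Matrix.mulVec_mulVec, ih, Matrix.mulVec_smul, h, smul_smul, pow_succ]
  have hs := NormedSpace.exp_series_hasSum_exp' (𝕂 := ℂ) A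
  let L : Matrix N N ℂ →ₗ[ℂ] (N → ℂ) :=
    { toFun := fun B => B *ᵥ v
      map_add' := fun B C => Matrix.add_mulVec B C v
      map_smul' := fun a B => Matrix.smul_mulVec a B v }
  have hL : Continuous L := L.continuous_of_finiteDimensional
  have h1 := hs.map L hL
  have hs2 := NormedSpace.exp_series_hasSum_exp' (𝕂 := ℂ) c
  have h2 := hs2.smul_const v
  rw [← Complex.exp_eq_exp_ℂ] at h2
  refine h1.unique ?_
  convert h2 using 1
  funext n
  show ((n.factorial : ℂ)⁻¹ • A ^ n) *ᵥ v = ((n.factorial : ℂ)⁻¹ • c ^ n) • v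
  rw [Matrix.smul_mulVec, hp, smul_assoc]

/-- the evolution acting on an eigenvector -/
theorem ev_mulVec_eig {H V : Matrix N N ℂ} {E : ℝ} {Ω : N → ℂ} (h : H *ᵥ Ω = (E : ℂ) • Ω)
    (t : ℝ) : ev H t V *ᵥ Ω = Complex.exp (-(E * t * Complex.I)) •
      (NormedSpace.exp (((t : ℂ) * Complex.I) • H) *ᵥ (V *ᵥ Ω)) := by
  have h1 : ((-((t : ℂ) * Complex.I)) • H) *ᵥ Ω = (-(E * t * Complex.I)) • Ω := by
    rw [Matrix.smul_mulVec, h, smul_smul]
    congr 1
    ring
  rw [ev, ← Matrix.mulVec_mulVec, exp_mulVec_eig h1, Matrix.mulVec_smul, ← Matrix.mulVec_mulVec]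

/-- pairing of an eigenvector with the evolved vector -/
theorem ip_exp_eig {H : Matrix N N ℂ} (hH : H.IsHermitian) {l : ℝ} {u : N → ℂ}
    (h : H *ᵥ u = (l : ℂ) • u) (t : ℝ) (x : N → ℂ) :
    star u ⬝ᵥ (NormedSpace.exp (((t : ℂ) * Complex.I) • H) *ᵥ x) =
      Complex.exp (l * t * Complex.I) * (star u ⬝ᵥ x) := by
  have h1 : ((-((t : ℂ) * Complex.I)) • H) *ᵥ u = (-(l * t * Complex.I)) • u := by
    rw [Matrix.smul_mulVec, h, smul_smul]
    congr 1
    ring
  have h2 : (NormedSpace.exp (((t : ℂ) * Complex.I) • H))ᴴ =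
      NormedSpace.exp ((-((t : ℂ) * Complex.I)) • H) := by
    rw [← Matrix.exp_conjTranspose, Matrix.conjTranspose_smul, hH.eq]
    congr 2
    simp
  have h3 : star u ⬝ᵥ (NormedSpace.exp (((t : ℂ) * Complex.I) • H) *ᵥ x) =
      star ((NormedSpace.exp (((t : ℂ) * Complex.I) • H))ᴴ *ᵥ u) ⬝ᵥ x := by
    rw [ip_mulVec, Matrix.conjTranspose_conjTranspose]
  rw [h3, h2, exp_mulVec_eig h1, star_smul, smul_dotProduct, smul_eq_mul]
  congr 1
  rw [RCLike.star_def, ← Complex.exp_conj]
  congr 1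
  simp

theorem ff_ground (hΔ : 0 < Δ) (hw : IsFilter Δ w) {H : Matrix N N ℂ} (hH : H.IsHermitian)
    (V : Matrix N N ℂ) {E : ℝ} {Ω : N → ℂ} (hg : GappedGround H Δ E Ω) :
    FF124 w H V *ᵥ Ω = (star Ω ⬝ᵥ (V *ᵥ Ω)) • Ω := by
  -- pairing with every eigenvector
  have key : ∀ (l : ℝ) (u : N → ℂ), nsq u = 1 → H *ᵥ u = (l : ℂ) • u →
      star u ⬝ᵥ (FF124 w H V *ᵥ Ω) = star u ⬝ᵥ ((star Ω ⬝ᵥ (V *ᵥ Ω)) • Ω) := by
    intro l u hu hl
    let L : Matrix N N ℂ →ₗ[ℂ] ℂ :=
      { toFun := fun B => star u ⬝ᵥ (B *ᵥ Ω)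
        map_add' := fun B C => by rw [Matrix.add_mulVec, dotProduct_add]
        map_smul' := fun a B => by
          rw [Matrix.smul_mulVec, dotProduct_smul]
          rfl }
    have h1 := ContinuousLinearMap.integral_comp_comm (LinearMap.toContinuousLinearMap L)
      (ff_int hw hH V)
    have h2 : ∀ t : ℝ, (LinearMap.toContinuousLinearMap L) (((w t : ℝ) : ℂ) • ev H t V) =
        ((w t : ℝ) : ℂ) * Complex.exp (((l - E : ℝ) : ℂ) * t * Complex.I) *
          (star u ⬝ᵥ (V *ᵥ Ω)) := by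
      intro t
      have e : (LinearMap.toContinuousLinearMap L) (((w t : ℝ) : ℂ) • ev H t V) =
        ((w t : ℝ) : ℂ) * (star u ⬝ᵥ (ev H t V *ᵥ Ω)) := by
        rw [map_smul]
        rfl
      have e3 : Complex.exp (((l - E : ℝ) : ℂ) * t * Complex.I) =
          Complex.exp (-(E * t * Complex.I)) * Complex.exp (l * t * Complex.I) := by
        rw [← Complex.exp_add]
        congr 1
        push_cast
        ring
      rw [e, ev_mulVec_eig hg.2.1, dotProduct_smul, ip_exp_eig hH hl, smul_eq_mul, e3]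
      ring
    simp only [h2] at h1
    rw [integral_mul_const] at h1
    have h3 : star u ⬝ᵥ (FF124 w H V *ᵥ Ω) =
        (∫ t : ℝ, ((w t : ℝ) : ℂ) * Complex.exp (((l - E : ℝ) : ℂ) * t * Complex.I)) *
          (star u ⬝ᵥ (V *ᵥ Ω)) := h1.symm
    rw [h3, dotProduct_smul, smul_eq_mul]
    have g1 := hg.2.2 u
    rw [hu, hl, dotProduct_smul, ip_self, hu] at g1
    have g2 : Δ * (1 - ‖star Ω ⬝ᵥ u‖ ^ 2) ≤ l - E := by
      simpa using g1
    by_cases hlE : l = E
    · -- the eigenvector is a phase times the ground state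
      have h4 : (∫ t : ℝ, ((w t : ℝ) : ℂ) * Complex.exp (((l - E : ℝ) : ℂ) * t * Complex.I)) = 1 := by
        rw [hlE]
        simp only [sub_self, Complex.ofReal_zero, zero_mul, Complex.exp_zero, mul_one]
        have h := integral_complex_ofReal (f := w) (μ := volume)
        rw [hw.int] at h
        rw [h, Complex.ofReal_one]
      rw [h4, one_mul]
      have g3 : 1 ≤ ‖star Ω ⬝ᵥ u‖ ^ 2 := by
        rw [hlE, sub_self] at g2
        have := nonpos_of_mul_nonpos_right g2 hΔ
        linarith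
      -- u = c Ω
      set c : ℂ := star Ω ⬝ᵥ u with hc
      have g4 : nsq (u - c • Ω) = 0 := by
        have g5 : nsq u = ‖c‖ ^ 2 + nsq (u - c • Ω) := by
          have g6 : u = c • Ω + (u - c • Ω) := by abel
          have g7 : star Ω ⬝ᵥ (u - c • Ω) = 0 := by
            rw [dotProduct_sub, dotProduct_smul, ip_self, hg.1, ← hc]
            simp
          conv_lhs => rw [g6]
          rw [nsq_add, nsq_smul, hg.1, star_smul, smul_dotProduct, g7]
          simp
        have g8 := nsq_nonneg' (u - c • Ω)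
        rw [hu] at g5
        linarith
      have g9 : u = c • Ω := by
        have : u - c • Ω = 0 := by
          funext i
          have h5 : ∀ i ∈ (Finset.univ : Finset N), 0 ≤ ‖(u - c • Ω) i‖ ^ 2 :=
            fun i _ => sq_nonneg _
          have h6 := (Finset.sum_eq_zero_iff_of_nonneg h5).1 g4 i (Finset.mem_univ i)
          simpa using h6
        exact sub_eq_zero.1 this
      rw [g9, star_smul, smul_dotProduct, smul_dotProduct, ip_self, hg.1]
      simp only [smul_eq_mul, Complex.ofReal_one, mul_one]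
      ring
    · have g3 : star Ω ⬝ᵥ u = 0 := by
        -- eigenvectors of different eigenvalues are orthogonal
        have e1 : star Ω ⬝ᵥ (H *ᵥ u) = (l : ℂ) * (star Ω ⬝ᵥ u) := by
          rw [hl, dotProduct_smul, smul_eq_mul]
        have e2 : star Ω ⬝ᵥ (H *ᵥ u) = (E : ℂ) * (star Ω ⬝ᵥ u) := by
          have : star Ω ⬝ᵥ (H *ᵥ u) = star (H *ᵥ Ω) ⬝ᵥ u := by
            rw [ip_mulVec, hH.eq]
          rw [this, hg.2.1, star_smul, smul_dotProduct, smul_eq_mul, RCLike.star_def,
            Complex.conj_ofReal]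
        have e3 : ((l : ℂ) - (E : ℂ)) * (star Ω ⬝ᵥ u) = 0 := by
          rw [sub_mul, ← e1, ← e2, sub_self]
        rcases mul_eq_zero.1 e3 with h | h
        · exfalso
          apply hlE
          have := sub_eq_zero.1 h
          exact_mod_cast this
        · exact h
      have g4 : star u ⬝ᵥ Ω = 0 := by
        rw [p5_ip_star, g3, star_zero]
      rw [g3, norm_zero] at g2
      have g5 : Δ ≤ |l - E| := by
        refine le_trans ?_ (le_abs_self _)
        simpa using g2
      rw [hw.win (l - E) g5, zero_mul, g4, mul_zero]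
  -- conclude with the eigenvector basis
  have hb : ∀ i : N, nsq (⇑(hH.eigenvectorBasis i)) = 1 := by
    intro i
    have h := hH.eigenvectorBasis.orthonormal.1 i
    rw [EuclideanSpace.norm_eq, Real.sqrt_eq_one] at h
    exact h
  have hd : ∀ i : N, star (⇑(hH.eigenvectorBasis i)) ⬝ᵥ
      (FF124 w H V *ᵥ Ω - (star Ω ⬝ᵥ (V *ᵥ Ω)) • Ω) = 0 := by
    intro i
    rw [dotProduct_sub, key _ _ (hb i) (hH.mulVec_eigenvectorBasis i), sub_self]
  set d : N → ℂ := FF124 w H V *ᵥ Ω - (star Ω ⬝ᵥ (V *ᵥ Ω)) • Ω with hdd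
  have hd0 : (WithLp.toLp 2 d : EuclideanSpace ℂ N) = 0 := by
    refine InnerProductSpace.ext_inner_left_basis hH.eigenvectorBasis.toBasis (fun i => ?_)
    rw [inner_zero_right, EuclideanSpace.inner_eq_star_dotProduct, dotProduct_comm,
      OrthonormalBasis.coe_toBasis]
    exact hd i
  have : d = 0 := by
    have h := congrArg WithLp.ofLp hd0
    exact h
  exact sub_eq_zero.1 this

theorem DD_ground (hΔ : 0 < Δ) (hw : IsFilter Δ w) {H : Matrix N N ℂ} (hH : H.IsHermitian)
    (V : Matrix N N ℂ) {E : ℝ} {Ω : N → ℂ} (hg : GappedGround H Δ E Ω) :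
    Complex.I • ((H * DD w H V - DD w H V * H) *ᵥ Ω) =
      (star Ω ⬝ᵥ (V *ᵥ Ω)) • Ω - V *ᵥ Ω := by
  rw [← Matrix.smul_mulVec, ff_comm hw hH V, Matrix.sub_mulVec, ff_ground hΔ hw hH V hg]

end P4g

end Vale.Agent.P356.PH
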