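import Vale.Agent.P356.MathlibUsed
import Mathlib.Analysis.Distribution.SchwartzSpace.Fourier
import Mathlib.Analysis.Calculus.BumpFunction.InnerProduct

/-!
# P356, block P3: the filter function
-/

open MeasureTheory Complex
open scoped FourierTransform SchwartzMap ContDiff

namespace Vale.Agent.P356.PH

theorem exists_filter107 (Δ : ℝ) (hΔ : 0 < Δ) : ∃ w : ℝ → ℝ, Continuous w ∧ Integrable w ∧
    (∀ k : ℕ, ∃ C : ℝ, ∀ t, (1 + |t|) ^ k * |w t| ≤ C) ∧
    (∀ k : ℕ, Integrable fun t => |t| ^ k * |w t|) ∧ ∫ t, w t = 1 ∧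
    ∀ E : ℝ, Δ ≤ |E| → ∫ t, (w t : ℂ) * exp ((t * E : ℝ) * I) = 0 := by
  have hpi := Real.pi_pos
  let φ : ContDiffBump (0 : ℝ) := ⟨Δ / (4 * Real.pi), Δ / (2 * Real.pi), by positivity, by
    rw [div_lt_div_iff₀ (by positivity) (by positivity)]; nlinarith⟩
  have hcs : HasCompactSupport (fun x => ((φ x : ℝ) : ℂ)) :=
    φ.hasCompactSupport.comp_left (g := fun r : ℝ => (r : ℂ)) (by simp)
  have hsm : ContDiff ℝ ∞ (fun x => ((φ x : ℝ) : ℂ)) :=
    Complex.ofRealCLM.contDiff.comp φ.contDiff
  let g : 𝓢(ℝ, ℂ) := hcs.toSchwartzMap hsm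
  let u : 𝓢(ℝ, ℂ) := 𝓕⁻ g
  have hu : 𝓕 u = g := FourierTransform.fourier_fourierInv_eq g
  have hint : ∀ E : ℝ, Integrable fun t : ℝ => u t * exp ((t * E : ℝ) * I) := by
    intro E
    refine (u.integrable (μ := volume)).mul_bdd (c := 1) ?_ ?_
    · exact (by fun_prop : Continuous fun t : ℝ => exp ((t * E : ℝ) * I)).aestronglyMeasurable
    · exact Filter.Eventually.of_forall fun t => by rw [Complex.norm_exp_ofReal_mul_I]
  have key : ∀ E : ℝ, ∫ t, u t * exp ((t * E : ℝ) * I) = φ (-(E / (2 * Real.pi))) := by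
    intro E
    have h1 : (𝓕 u) (-(E / (2 * Real.pi))) = g (-(E / (2 * Real.pi))) := by rw [hu]
    rw [SchwartzMap.fourier_coe, Real.fourier_eq'] at h1
    have h2 : g (-(E / (2 * Real.pi))) = φ (-(E / (2 * Real.pi))) := rfl
    rw [← h2, ← h1]
    congr 1
    ext t
    rw [smul_eq_mul, mul_comm]
    congr 2
    simp only [RCLike.inner_apply, conj_trivial]
    push_cast
    field_simp
  have hz : ∀ E : ℝ, Δ ≤ |E| → φ (-(E / (2 * Real.pi))) = 0 := by
    intro E hE
    apply φ.zero_of_le_dist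
    rw [dist_zero_right, norm_neg, Real.norm_eq_abs, abs_div, abs_of_pos (by positivity : 0 < 2 * Real.pi)]
    exact div_le_div_of_nonneg_right hE (by positivity)
  have hwint : Integrable fun t => (u t).re := (u.integrable (μ := volume)).re
  refine ⟨fun t => (u t).re, ?_, hwint, ?_, ?_, ?_, ?_⟩
  · exact Complex.continuous_re.comp u.continuous
  · intro k
    refine ⟨_, fun t => le_trans ?_ (SchwartzMap.one_add_le_sup_seminorm_apply (𝕜 := ℝ)
      (m := (k, 0)) (le_refl k) (le_refl 0) u t)⟩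
    rw [norm_iteratedFDeriv_zero, Real.norm_eq_abs]
    exact mul_le_mul_of_nonneg_left (Complex.abs_re_le_norm _) (by positivity)
  · intro k
    refine (u.integrable_pow_mul volume k).mono' ?_ (Filter.Eventually.of_forall fun t => ?_)
    · exact (by fun_prop : Continuous fun t : ℝ => |t| ^ k * |(u t).re|).aestronglyMeasurable
    · rw [Real.norm_eq_abs, abs_mul, abs_pow, abs_abs, abs_abs, Real.norm_eq_abs]
      exact mul_le_mul_of_nonneg_left (Complex.abs_re_le_norm _) (by positivity)
  · have h0 := key 0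
    simp only [mul_zero, Complex.ofReal_zero, zero_mul, Complex.exp_zero, mul_one, zero_div, neg_zero] at h0
    have h1 : φ 0 = 1 := φ.one_of_mem_closedBall (by simp [φ]; positivity)
    rw [h1] at h0
    have := congrArg Complex.re h0
    rw [Complex.ofReal_re] at this
    rw [← this]
    exact integral_re (u.integrable (μ := volume))
  · intro E hE
    have h1 := key E
    have h2 := key (-E)
    rw [hz E hE] at h1
    rw [hz (-E) (by rwa [abs_neg])] at h2
    have h3 : ∫ t, (starRingEnd ℂ) (u t * exp ((t * -E : ℝ) * I)) = 0 := by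
      rw [integral_conj, h2]; simp
    have h4 : ∀ t : ℝ, (((u t).re : ℝ) : ℂ) * exp ((t * E : ℝ) * I) =
        (1 / 2 : ℂ) * (u t * exp ((t * E : ℝ) * I) +
          (starRingEnd ℂ) (u t * exp ((t * -E : ℝ) * I))) := by
      intro t
      rw [map_mul, ← Complex.exp_conj, Complex.re_eq_add_conj]
      simp only [map_mul, Complex.conj_ofReal, Complex.conj_I]
      push_cast
      ring_nf
    simp_rw [h4]
    rw [integral_const_mul, integral_add (hint E)]
    · rw [h1, h3]; simp
    · exact (Complex.conjCLE.toContinuousLinearMap.integrable_comp (hint (-E)))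

end Vale.Agent.P356.PH
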