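import Vale.Agent.P356.PH.Defs
import Vale.Agent.P356.PH.Filter107

/-!
P3: existence of a filter function.
-/

set_option linter.all false

namespace Vale.Agent.P356.PH

theorem exists_filter (Δ : ℝ) (hΔ : 0 < Δ) : ∃ w : ℝ → ℝ, IsFilter Δ w := by
  obtain ⟨w, h1, -, -, h4, h5, h6⟩ := exists_filter107 Δ hΔ
  refine ⟨w, h1, h4, h5, fun ξ hξ => ?_⟩
  rw [← h6 ξ hξ]
  refine MeasureTheory.integral_congr_ae (Filter.Eventually.of_forall fun t => ?_)
  simp only
  congr 2
  push_cast
  ring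

end Vale.Agent.P356.PH
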