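import Vale.Agent.P356.PH.Ev

/-!
P2: the Lieb-Robinson bound on the lattice.
-/

set_option linter.all false

namespace Vale.Agent.P356.PH

open Matrix Finset Vale.Agent.P356 Vale.Agent.P356.SV Vale.Agent.P356.Path
open scoped BigOperators ComplexOrder Kronecker Matrix.Norms.L2Operator

/-- comparison of two dynamics with a constant bound -/
theorem ph_duhamel_abs {𝔸 : Type*} [CStarAlgebra 𝔸] {K V A : 𝔸} (hK : IsSelfAdjoint K)
    (hV : IsSelfAdjoint V) (T : ℝ) {c : ℝ}
    (hb : ∀ s, |s| ≤ |T| → ‖phTau K s A * V - V * phTau K s A‖ ≤ c) :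
    ‖phTau (K + V) T A - phTau K T A‖ ≤ |T| * c := by
  rcases le_total 0 T with hT | hT
  · rw [abs_of_nonneg hT]
    refine ph_duhamel (A := A) hK hV (φ := fun s => s * c) (φ' := fun _ => c) hT
      (fun s => ((hasDerivAt_id s).mul_const c).congr_deriv (one_mul _)) (zero_mul _)
      (fun s h0 hs => hb s ?_)
    rw [abs_of_nonneg h0, abs_of_nonneg hT]
    exact hs
  · rw [abs_of_nonpos hT]
    have h1 := ph_duhamel (A := A) hK.neg hV.neg (φ := fun s => s * c) (φ' := fun _ => c)
      (T := -T) (by linarith)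
      (fun s => ((hasDerivAt_id s).mul_const c).congr_deriv (one_mul _)) (zero_mul _)
      (fun s h0 hs => ?_)
    · rw [← neg_add, phTau_neg_ham, phTau_neg_ham, neg_neg] at h1
      exact h1
    · rw [phTau_neg_ham]
      have h2 := hb (-s) (by rw [abs_neg, abs_of_nonneg h0, abs_of_nonpos hT]; exact hs)
      have h3 : phTau K (-s) A * -V - -V * phTau K (-s) A =
          -(phTau K (-s) A * V - V * phTau K (-s) A) := by
        simp only [mul_neg, neg_mul]
        abel
      rw [h3, norm_neg]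
      exact h2

section P2

variable {L q R : ℕ} {J : ℝ}

/-- a set of diameter at most `R` has at most `(2R+1)^2` points -/
theorem lr_card {X : Finset (Site L)} (hX : ∀ x ∈ X, ∀ y ∈ X, dist1 x y ≤ R) :
    X.card ≤ (2 * R + 1) ^ 2 := by
  rcases X.eq_empty_or_nonempty with h | ⟨x, hx⟩
  · rw [h, Finset.card_empty]; positivity
  · refine le_trans (Finset.card_le_card (t := ball x R) fun y hy => ?_) (card_ball x R)
    rw [ball, Finset.mem_filter]
    exact ⟨Finset.mem_univ y, hX y hy x hx⟩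

/-- the sets of diameter at most `R` which meet a given set `X` -/
theorem lr_card_touch (X : Finset (Site L)) :
    ((Finset.univ : Finset (Finset (Site L))).filter
      (fun Z => (∀ x ∈ Z, ∀ y ∈ Z, dist1 x y ≤ R) ∧ ¬ Disjoint X Z)).card ≤
      X.card * NR R := by
  classical
  have h : ((Finset.univ : Finset (Finset (Site L))).filter
      (fun Z => (∀ x ∈ Z, ∀ y ∈ Z, dist1 x y ≤ R) ∧ ¬ Disjoint X Z)) ⊆
      X.biUnion (fun x => (ball x R).powerset) := by
    intro Z hZ
    rw [Finset.mem_filter] at hZ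
    obtain ⟨-, hd, hn⟩ := hZ
    rw [Finset.not_disjoint_iff] at hn
    obtain ⟨x, hx, hxZ⟩ := hn
    rw [Finset.mem_biUnion]
    refine ⟨x, hx, ?_⟩
    rw [Finset.mem_powerset]
    intro y hy
    rw [ball, Finset.mem_filter]
    exact ⟨Finset.mem_univ y, hd y hy x hxZ⟩
  refine (Finset.card_le_card h).trans ?_
  refine Finset.card_biUnion_le.trans ?_
  refine (Finset.sum_le_card_nsmul _ _ (NR R) (fun x _ => card_local x R)).trans ?_
  rw [nsmul_eq_mul, Nat.cast_id]

/-- P2a -/
theorem lieb_robinson (hJ : 0 ≤ J) {g : Finset (Site L) → Op (Site L) q}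
    (hg : Terms L q R J g) (m : ℕ) (X Y : Finset (Site L))
    (hX : ∀ x ∈ X, ∀ y ∈ X, dist1 x y ≤ R) (hXY : ∀ x ∈ X, ∀ y ∈ Y, m * R < dist1 x y)
    (A B : Op (Site L) q) (hA : ActsOn X A) (hB : ActsOn Y B) (t : ℝ) :
    ‖ev (∑ Z, g Z) t A * B - B * ev (∑ Z, g Z) t A‖ ≤
      2 * ‖A‖ * ‖B‖ * ((kap R J * |t|) ^ m / m.factorial) := by
  classical
  -- the sets which touch `Z`
  let T : Finset (Site L) → Finset (Finset (Site L)) := fun Z =>
    (Finset.univ : Finset (Finset (Site L))).filter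
      (fun W => (∀ x ∈ W, ∀ y ∈ W, dist1 x y ≤ R) ∧ ¬ Disjoint Z W)
  let N : Finset (Site L) → Finset (Finset (Site L)) := fun Z => if g Z = 0 then ∅ else T Z
  let P : Finset (Site L) → ℕ → Prop := fun Z k => ∀ z ∈ Z, ∀ y ∈ Y, k * R < dist1 z y
  let d : Finset (Site L) → ℕ := fun Z => Nat.findGreatest (P Z) m
  have hT : ∀ Z : Finset (Site L), (∀ x ∈ Z, ∀ y ∈ Z, dist1 x y ≤ R) →
      (T Z).card ≤ (2 * R + 1) ^ 2 * NR R := fun Z hZ =>
    (lr_card_touch Z).trans (Nat.mul_le_mul_right _ (lr_card hZ))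
  have hN : ∀ Z, (N Z).card ≤ (2 * R + 1) ^ 2 * NR R := fun Z => by
    by_cases h : g Z = 0
    · simp only [N, if_pos h, Finset.card_empty]
      exact Nat.zero_le _
    · simp only [N, if_neg h]
      exact hT Z (hg.range Z h).2
  have hout : ∀ (A' : Op (Site L) q) (Z W : Finset (Site L)), ActsOn Z A' → W ∉ T Z →
      Commute A' (g W) := fun A' Z W hA' hW => by
    by_cases h : g W = 0
    · rw [h]; exact Commute.zero_right _
    · refine ph_acts_comm ?_ hA' (hg.loc W)
      by_contra hn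
      exact hW (Finset.mem_filter.2 ⟨Finset.mem_univ W, (hg.range W h).2, hn⟩)
  have hcomm : ∀ Z W, W ∉ N Z → Commute (g Z) (g W) := fun Z W hW => by
    by_cases h : g Z = 0
    · rw [h]; exact Commute.zero_left _
    · simp only [N, if_neg h] at hW
      exact hout (g Z) Z W (hg.loc Z) hW
  have hPY : ∀ (A' : Op (Site L) q) (Z : Finset (Site L)) (k : ℕ), ActsOn Z A' → P Z k →
      Commute A' B := fun A' Z k hA' hP => by
    refine ph_acts_comm ?_ hA' hB
    rw [Finset.disjoint_left]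
    intro z hz hzY
    have := hP z hz z hzY
    rw [dist1_self] at this
    omega
  have hd0 : ∀ Z, 1 ≤ d Z → Commute (g Z) B := fun Z hZ => by
    have h := Nat.findGreatest_of_ne_zero (P := P Z) (n := m) rfl (by
      have : d Z = Nat.findGreatest (P Z) m := rfl
      omega)
    exact hPY (g Z) Z _ (hg.loc Z) h
  -- one step
  have hstep : ∀ (Z W : Finset (Site L)) (k : ℕ), k ≤ m → W ∈ T Z → (k ≠ 0 → P Z k) →
      k ≤ d W + 1 := fun Z W k hk hW hP => by
    rcases Nat.eq_zero_or_pos k with h0 | hpos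
    · omega
    · have hP' := hP (by omega)
      have h1 : k - 1 ≤ d W := by
        refine Nat.le_findGreatest (by omega) ?_
        intro w hw y hy
        rw [Finset.mem_filter, Finset.not_disjoint_iff] at hW
        obtain ⟨-, hWd, z, hzZ, hzW⟩ := hW
        have h2 := hP' z hzZ y hy
        have h3 := hWd z hzW w hw
        have h4 := dist1_tri z w y
        have h5 : k * R = (k - 1) * R + R := by
          obtain ⟨k', rfl⟩ : ∃ k', k = k' + 1 := ⟨k - 1, by omega⟩
          rw [Nat.add_sub_cancel]; ring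
        omega
      omega
  have hd1 : ∀ Z W, W ∈ N Z → d Z ≤ d W + 1 := fun Z W hW => by
    by_cases h : g Z = 0
    · simp only [N, if_pos h] at hW
      exact absurd hW (Finset.notMem_empty W)
    · simp only [N, if_neg h] at hW
      exact hstep Z W (d Z) (Nat.findGreatest_le m) hW fun hne =>
        Nat.findGreatest_of_ne_zero (P := P Z) (n := m) rfl hne
  have key := ph_LR_abs (𝔸 := Op (Site L) q) g (fun Z => hg.herm Z)
    (fun Z => ph_norm_le hJ (hg.norm Z)) hJ N hN hcomm B d hd0 hd1 m A (T X) (hT X hX)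
    (fun W hW => hout A X W hA hW) (fun hm => hPY A X m hA hXY)
    (fun W hW => hstep X W m le_rfl hW fun _ => hXY) t
  rw [ev_eq]
  refine key.trans (le_of_eq ?_)
  rw [kap]
  push_cast
  ring

/-- the terms inside a region -/
theorem lr_restrict {g : Finset (Site L) → Op (Site L) q} (hg : Terms L q R J g)
    (B : Finset (Site L)) : Terms L q R J (fun Z => if Z ⊆ B then g Z else 0) := by
  refine ⟨fun Z => ?_, fun Z => ?_, fun Z => ?_, fun Z => ?_⟩
  · by_cases h : Z ⊆ B
    · simp only [if_pos h]; exact hg.herm Z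
    · simp only [if_neg h]; exact Matrix.isHermitian_zero
  · by_cases h : Z ⊆ B
    · simp only [if_pos h]; exact hg.loc Z
    · simp only [if_neg h]; exact ph_acts_zero Z
  · by_cases h : Z ⊆ B
    · simp only [if_pos h]; exact hg.norm Z
    · simp only [if_neg h]
      intro ψ
      rw [Matrix.zero_mulVec]
      have h0 : nsq (0 : Conf (Site L) q → ℂ) = 0 := by simp [nsq]
      rw [h0]
      exact mul_nonneg (sq_nonneg _) (Finset.sum_nonneg fun i _ => by positivity)
  · by_cases h : Z ⊆ B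
    · simp only [if_pos h]; exact hg.range Z
    · simp only [if_neg h]; exact fun hne => absurd rfl hne

theorem lr_HB_eq (g : Finset (Site L) → Op (Site L) q) (B : Finset (Site L)) :
    NA.HB g B = ∑ Z, (if Z ⊆ B then g Z else 0) := by
  rw [NA.HB, Finset.sum_filter]

theorem lr_HB_herm {g : Finset (Site L) → Op (Site L) q} (hg : Terms L q R J g)
    (B : Finset (Site L)) : (NA.HB g B).IsHermitian := by
  rw [NA.HB]
  exact ph_isHermitian (by
    rw [isSelfAdjoint_iff, star_sum]
    exact Finset.sum_congr rfl fun Z _ => hg.herm Z)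

theorem lr_HB_acts {g : Finset (Site L) → Op (Site L) q} (hg : Terms L q R J g)
    (B : Finset (Site L)) : ActsOn B (NA.HB g B) := by
  rw [NA.HB]
  exact ph_acts_sum _ fun Z hZ => ph_acts_mono (Finset.mem_filter.1 hZ).2 (hg.loc Z)

/-- P2b -/
theorem ev_step (hJ : 0 ≤ J) {g : Finset (Site L) → Op (Site L) q}
    (hg : Terms L q R J g) (x : Site L) (r m : ℕ) (hr : m * R + 2 * R ≤ r) (X : Finset (Site L))
    (hx : x ∈ X) (hX : ∀ y ∈ X, ∀ z ∈ X, dist1 y z ≤ R) (A : Op (Site L) q) (hA : ActsOn X A)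
    (t : ℝ) :
    ‖ev (Hr g x (r + 1)) t A - ev (Hr g x r) t A‖ ≤
      2 * J * NR R * (2 * r + 3) ^ 2 * ‖A‖ * |t| * ((kap R J * |t|) ^ m / m.factorial) := by
  classical
  let S : Finset (Finset (Site L)) := (Finset.univ : Finset (Finset (Site L))).filter
    (fun Z => (Z ⊆ ball x (r + 1) ∧ ¬ Z ⊆ ball x r) ∧ g Z ≠ 0)
  have hsub : ball x r ⊆ ball x (r + 1) := fun y hy => by
    rw [ball, Finset.mem_filter] at hy ⊢
    exact ⟨hy.1, by omega⟩
  have hsplit : Hr g x (r + 1) = Hr g x r + ∑ Z ∈ S, g Z := by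
    rw [Hr, Hr, lr_HB_eq, lr_HB_eq, Finset.sum_filter, ← Finset.sum_add_distrib]
    refine Finset.sum_congr rfl fun Z _ => ?_
    by_cases h1 : Z ⊆ ball x r
    · rw [if_pos h1, if_pos (h1.trans hsub), if_neg (by tauto), add_zero]
    · by_cases h2 : Z ⊆ ball x (r + 1)
      · by_cases h3 : g Z = 0
        · simp [h3]
        · rw [if_pos h2, if_neg h1, if_pos ⟨⟨h2, h1⟩, h3⟩, zero_add]
      · rw [if_neg h2, if_neg h1, if_neg (by tauto), zero_add]
  have hScard : S.card ≤ (2 * r + 3) ^ 2 * NR R := by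
    have h1 : S ⊆ (Finset.univ : Finset (Finset (Site L))).filter
        (fun Z => (∀ x ∈ Z, ∀ y ∈ Z, dist1 x y ≤ R) ∧ ¬ Disjoint (ball x (r + 1)) Z) := by
      intro Z hZ
      rw [Finset.mem_filter] at hZ ⊢
      obtain ⟨hu, ⟨h2, h3⟩, h4⟩ := hZ
      refine ⟨hu, (hg.range Z h4).2, ?_⟩
      rw [Finset.not_disjoint_iff]
      obtain ⟨z, hz⟩ := (hg.range Z h4).1
      exact ⟨z, h2 hz, hz⟩
    refine (Finset.card_le_card h1).trans ((lr_card_touch _).trans ?_)
    refine Nat.mul_le_mul_right _ ((card_ball x (r + 1)).trans (le_of_eq ?_))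
    ring
  have hV : IsSelfAdjoint (∑ Z ∈ S, g Z) := by
    rw [isSelfAdjoint_iff, star_sum]
    exact Finset.sum_congr rfl fun Z _ => hg.herm Z
  have hK : IsSelfAdjoint (Hr g x r) := lr_HB_herm hg (ball x r)
  have hkap : 0 ≤ kap R J := by rw [kap]; positivity
  rw [hsplit, ev_eq, ev_eq]
  refine (ph_duhamel_abs (A := A) hK hV t (c := S.card * (2 * ‖A‖ * J *
    ((kap R J * |t|) ^ m / m.factorial))) ?_).trans ?_
  · intro s hs
    rw [Finset.mul_sum, Finset.sum_mul, ← Finset.sum_sub_distrib]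
    have hterm : ∀ Z ∈ S, ‖phTau (Hr g x r) s A * g Z - g Z * phTau (Hr g x r) s A‖ ≤
        2 * ‖A‖ * J * ((kap R J * |t|) ^ m / m.factorial) := fun Z hZ => by
      rw [Finset.mem_filter] at hZ
      obtain ⟨-, ⟨h2, h3⟩, h4⟩ := hZ
      have hfar : ∀ y ∈ X, ∀ z ∈ Z, m * R < dist1 y z := fun y hy z hz => by
        rw [Finset.not_subset] at h3
        obtain ⟨w, hw, hwr⟩ := h3
        have h5 : r < dist1 w x := by
          by_contra hc
          exact hwr (Finset.mem_filter.2 ⟨Finset.mem_univ w, by omega⟩)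
        have h6 := (hg.range Z h4).2 w hw z hz
        have h7 := dist1_tri w z x
        have h8 := hX y hy x hx
        have h9 := dist1_tri z y x
        have h10 := dist1_comm z y
        omega
      have h11 := lieb_robinson hJ (lr_restrict hg (ball x r)) m X Z hX hfar A (g Z) hA
        (hg.loc Z) s
      rw [← lr_HB_eq, ev_eq] at h11
      refine h11.trans ?_
      have h12 : (kap R J * |s|) ^ m ≤ (kap R J * |t|) ^ m :=
        pow_le_pow_left₀ (by positivity) (mul_le_mul_of_nonneg_left hs hkap) m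
      have h13 : (kap R J * |s|) ^ m / (m.factorial : ℝ) ≤
          (kap R J * |t|) ^ m / (m.factorial : ℝ) :=
        div_le_div_of_nonneg_right h12 (by positivity)
      have h14 : 2 * ‖A‖ * ‖g Z‖ ≤ 2 * ‖A‖ * J :=
        mul_le_mul_of_nonneg_left (ph_norm_le hJ (hg.norm Z)) (by positivity)
      exact mul_le_mul h14 h13 (by positivity) (by positivity)
    calc ‖∑ Z ∈ S, (phTau (Hr g x r) s A * g Z - g Z * phTau (Hr g x r) s A)‖ ≤
        ∑ Z ∈ S, ‖phTau (Hr g x r) s A * g Z - g Z * phTau (Hr g x r) s A‖ := norm_sum_le _ _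
      _ ≤ ∑ Z ∈ S, 2 * ‖A‖ * J * ((kap R J * |t|) ^ m / m.factorial) := Finset.sum_le_sum hterm
      _ = _ := by rw [Finset.sum_const, nsmul_eq_mul]
  · have hc : (S.card : ℝ) ≤ (2 * r + 3) ^ 2 * NR R := by exact_mod_cast hScard
    calc |t| * (S.card * (2 * ‖A‖ * J * ((kap R J * |t|) ^ m / m.factorial))) ≤
        |t| * ((2 * r + 3) ^ 2 * NR R * (2 * ‖A‖ * J * ((kap R J * |t|) ^ m / m.factorial))) := by
          refine mul_le_mul_of_nonneg_left ?_ (abs_nonneg t)
          exact mul_le_mul_of_nonneg_right hc (by positivity)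
      _ = _ := by ring

end P2

end Vale.Agent.P356.PH
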