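import Vale.Agent.P356.PH.Defs
import Vale.Agent.P356.SV.Ent
import Vale.Agent.P356.SV.Ops

/-!
The Gibbs variational inequality for the regularised reduced state, and the size of its
logarithm.
-/

set_option linter.all false

namespace Vale.Agent.P356.PH

open Matrix Finset Vale.Agent.P356 Vale.Agent.P356.SV Vale.Agent.P356.Path
open scoped BigOperators ComplexOrder Kronecker Matrix.Norms.L2Operator

section general
variable {N α β : Type*} [Fintype N] [DecidableEq N] [Fintype α] [Fintype β] [DecidableEq α]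
  [DecidableEq β]

/-- coordinates of a vector in the eigenbasis of the reduced state of `x` -/
theorem p7_rot_opL (e : N ≃ α × β) (x : α × β → ℂ) (f : α → ℝ) (ψ : N → ℂ) :
    (rotW x)ᴴ *ᵥ ((opL e (fOp x f) *ᵥ ψ) ∘ e.symm) =
      fun z => (f z.1 : ℂ) * ((rotW x)ᴴ *ᵥ (ψ ∘ e.symm)) z := by
  rw [opL_mulVec, mulVec_mulVec]
  have h1 : (rotW x)ᴴ * (fOp x f ⊗ₖ (1 : Matrix β β ℂ)) =
      (diagonal (fun i => (f i : ℂ)) ⊗ₖ (1 : Matrix β β ℂ)) * (rotW x)ᴴ := by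
    rw [rotW, fOp, conjTranspose_kronecker, conjTranspose_one, ← mul_kronecker_mul,
      ← mul_kronecker_mul, Matrix.mul_one, Matrix.mul_assoc (eigU x), ← Matrix.mul_assoc (eigU x)ᴴ,
      eigU_mul', Matrix.one_mul]
  rw [h1, ← mulVec_mulVec]
  have h2 : diagonal (fun i => (f i : ℂ)) ⊗ₖ (1 : Matrix β β ℂ) =
      diagonal (fun z : α × β => (f z.1 : ℂ)) := by
    ext ⟨i, b⟩ ⟨j, c⟩
    simp only [kroneckerMap_apply, diagonal_apply, one_apply, Prod.mk.injEq]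
    by_cases h : i = j
    · by_cases h' : b = c
      · simp [h, h']
      · simp [h, h']
    · simp [h]
  rw [h2]
  funext z
  rw [mulVec_diagonal]

theorem p7_expect (e : N ≃ α × β) (x : α × β → ℂ) (f : α → ℝ) (ψ : N → ℂ) :
    star ψ ⬝ᵥ (opL e (fOp x f) *ᵥ ψ) =
      ((∑ z : α × β, f z.1 * ‖((rotW x)ᴴ *ᵥ (ψ ∘ e.symm)) z‖ ^ 2 : ℝ) : ℂ) := by
  have h1 : star ψ ⬝ᵥ (opL e (fOp x f) *ᵥ ψ) =
      star (ψ ∘ e.symm) ⬝ᵥ ((opL e (fOp x f) *ᵥ ψ) ∘ e.symm) := by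
    simp only [dotProduct, Pi.star_apply, Function.comp_apply]
    exact (Equiv.sum_comp e.symm (fun s => star (ψ s) * (opL e (fOp x f) *ᵥ ψ) s)).symm
  rw [h1, ← ip_conj (rotW x) (rotW_mul x), p7_rot_opL]
  simp only [dotProduct, Pi.star_apply]
  push_cast
  refine Finset.sum_congr rfl fun z _ => ?_
  rw [← Complex.conj_mul', RCLike.star_def]
  ring

theorem p7_nsq (e : N ≃ α × β) (x : α × β → ℂ) (f : α → ℝ) (ψ : N → ℂ) :
    nsq (opL e (fOp x f) *ᵥ ψ) =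
      ∑ z : α × β, f z.1 ^ 2 * ‖((rotW x)ᴴ *ᵥ (ψ ∘ e.symm)) z‖ ^ 2 := by
  have h1 : nsq (opL e (fOp x f) *ᵥ ψ) =
      ∑ z, ‖((rotW x)ᴴ *ᵥ ((opL e (fOp x f) *ᵥ ψ) ∘ e.symm)) z‖ ^ 2 := by
    rw [nsq_conj (rotW x) (rotW_mul x)]
    exact (nsq_comp e _).symm
  rw [h1, p7_rot_opL]
  refine Finset.sum_congr rfl fun z _ => ?_
  rw [norm_mul, mul_pow, Complex.norm_real, Real.norm_eq_abs, sq_abs]

theorem p7_nsq_rot (e : N ≃ α × β) (x : α × β → ℂ) (ψ : N → ℂ) :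
    ∑ z, ‖((rotW x)ᴴ *ᵥ (ψ ∘ e.symm)) z‖ ^ 2 = nsq ψ := by
  rw [nsq_conj (rotW x) (rotW_mul x)]
  exact nsq_comp e _

theorem p7_norm_le {M : Matrix N N ℂ} {c : ℝ} (hc : 0 ≤ c)
    (h : ∀ ψ : N → ℂ, nsq (M *ᵥ ψ) ≤ c ^ 2 * nsq ψ) : ‖M‖ ≤ c := by
  rw [Matrix.l2_opNorm_def]
  refine ContinuousLinearMap.opNorm_le_bound _ hc fun v => ?_
  have h1 := h v.ofLp
  have h2 : ‖v‖ ^ 2 = nsq v.ofLp := by
    rw [EuclideanSpace.norm_sq_eq, nsq]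
  rw [← Real.sqrt_sq (norm_nonneg v), ← Real.sqrt_sq hc, ← Real.sqrt_mul (sq_nonneg c), h2]
  refine Real.le_sqrt_of_sq_le ?_
  refine le_trans (le_of_eq ?_) h1
  rw [EuclideanSpace.norm_sq_eq, nsq]
  rfl

theorem p7_norm (e : N ≃ α × β) (x : α × β → ℂ) (f : α → ℝ) {c : ℝ} (hc : 0 ≤ c)
    (hf : ∀ i, |f i| ≤ c) : ‖opL e (fOp x f)‖ ≤ c := by
  refine p7_norm_le hc fun ψ => ?_
  rw [p7_nsq, ← p7_nsq_rot e x ψ, Finset.mul_sum]
  refine Finset.sum_le_sum fun z _ => mul_le_mul_of_nonneg_right ?_ (sq_nonneg _)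
  rw [← sq_abs]
  exact pow_le_pow_left₀ (abs_nonneg _) (hf z.1) 2

end general

section lattice
variable {V : Type} [Fintype V] [DecidableEq V] {q : ℕ}

theorem GG_herm (A : Finset V) (Ω : Conf V q → ℂ) (ε : ℝ) : (GG A Ω ε).IsHermitian := by
  rw [Matrix.IsHermitian, GG, opOn_conjTranspose, fOp_conjTranspose]

theorem p7_card (A : Finset V) : ((Fintype.card ({x // x ∈ A} → Fin q) : ℕ) : ℝ) =
    (q : ℝ) ^ A.card := by
  rw [Fintype.card_fun, Fintype.card_fin, Fintype.card_coe]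
  push_cast
  rfl

theorem p7_reg_pos {d ε p : ℝ} (hd : 0 ≤ d) (hε : 0 < ε) (hp : 0 ≤ p) : 0 < reg d ε p := by
  unfold reg
  positivity

theorem p7_reg_sum (A : Finset V) (x : ({x // x ∈ A} → Fin q) × ({x // ¬ x ∈ A} → Fin q) → ℂ)
    (hx : ∑ i, ‖x i‖ ^ 2 = 1) {ε : ℝ} (hε : 0 < ε) :
    ∑ i, reg ((q : ℝ) ^ A.card) ε (eigp x i) = 1 := by
  unfold reg
  rw [← Finset.sum_div, Finset.sum_add_distrib, eigp_sum x hx, Finset.sum_const, Finset.card_univ,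
    nsmul_eq_mul, p7_card A, mul_comm ε]
  have : (0 : ℝ) < 1 + (q : ℝ) ^ A.card * ε := by positivity
  exact div_self this.ne'

theorem p7_nsq_cut (A : Finset V) (Ω : Conf V q → ℂ) (hΩ : nsq Ω = 1) :
    ∑ i, ‖(Ω ∘ (cut A q).symm) i‖ ^ 2 = 1 := by
  rw [← hΩ]
  exact nsq_comp (cut A q) Ω

theorem gibbs (hq : 1 ≤ q) (A : Finset V) (Ω Ω' : Conf V q → ℂ) (hΩ : nsq Ω = 1)
    (hΩ' : nsq Ω' = 1) (ε : ℝ) (hε : 0 < ε) :
    entropyOf A Ω' ≤ (star Ω' ⬝ᵥ (GG A Ω ε *ᵥ Ω')).re := by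
  rw [entropyOf, vnEntropy_rdm, GG, opOn, p7_expect, Complex.ofReal_re]
  refine ent_le (Ω ∘ (cut A q).symm) (Ω' ∘ (cut A q).symm) (p7_nsq_cut A Ω' hΩ')
    (fun i => reg ((q : ℝ) ^ A.card) ε (eigp (Ω ∘ (cut A q).symm) i))
    (fun i => p7_reg_pos (by positivity) hε (eigp_nonneg _ i)) ?_
  exact (p7_reg_sum A _ (p7_nsq_cut A Ω hΩ) hε).le

theorem GG_le (hq : 1 ≤ q) (A : Finset V) (Ω : Conf V q → ℂ) (hΩ : nsq Ω = 1) (ε : ℝ)
    (hε : 0 < ε) : (star Ω ⬝ᵥ (GG A Ω ε *ᵥ Ω)).re ≤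
      entropyOf A Ω + Real.log (1 + ε * (q : ℝ) ^ A.card) := by
  have h1 : star Ω ⬝ᵥ (GG A Ω ε *ᵥ Ω) =
      ((∑ i, eigp (Ω ∘ (cut A q).symm) i *
        -Real.log (reg ((q : ℝ) ^ A.card) ε (eigp (Ω ∘ (cut A q).symm) i)) : ℝ) : ℂ) := by
    rw [GG, opOn, expect_opL, trace_redA_fOp]
  rw [h1, Complex.ofReal_re, entropyOf, vnEntropy_rdm]
  have hs := eigp_sum (Ω ∘ (cut A q).symm) (p7_nsq_cut A Ω hΩ)
  have h2 : ent (Ω ∘ (cut A q).symm) + Real.log (1 + ε * (q : ℝ) ^ A.card) =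
      ∑ i, (Real.negMulLog (eigp (Ω ∘ (cut A q).symm) i) +
        eigp (Ω ∘ (cut A q).symm) i * Real.log (1 + ε * (q : ℝ) ^ A.card)) := by
    rw [Finset.sum_add_distrib, ← Finset.sum_mul, hs, one_mul]
    rfl
  rw [h2]
  refine Finset.sum_le_sum fun i _ => ?_
  have hp := eigp_nonneg (Ω ∘ (cut A q).symm) i
  have hd : (0 : ℝ) < 1 + ε * (q : ℝ) ^ A.card := by positivity
  rw [reg, Real.log_div (by positivity) hd.ne']
  rcases hp.eq_or_lt with h | h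
  · rw [← h]
    simp
  · rw [Real.negMulLog]
    have h3 : Real.log (eigp (Ω ∘ (cut A q).symm) i) ≤
        Real.log (eigp (Ω ∘ (cut A q).symm) i + ε) :=
      Real.log_le_log h (by linarith)
    have h4 := mul_le_mul_of_nonneg_left h3 hp
    nlinarith only [h4]

theorem GG_norm (hq : 1 ≤ q) (A : Finset V) (Ω : Conf V q → ℂ) (hΩ : nsq Ω = 1) (ε : ℝ)
    (hε : 0 < ε) (hε1 : ε ≤ 1) : ‖GG A Ω ε‖ ≤ Real.log ((1 + ε * (q : ℝ) ^ A.card) / ε) := by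
  have hd1 : (1 : ℝ) ≤ (q : ℝ) ^ A.card := one_le_pow₀ (by exact_mod_cast hq)
  have hd : (0 : ℝ) < 1 + ε * (q : ℝ) ^ A.card := by positivity
  have h0 : 1 ≤ (1 + ε * (q : ℝ) ^ A.card) / ε := by
    rw [le_div_iff₀ hε]
    nlinarith
  rw [GG, opOn]
  refine p7_norm _ _ _ (Real.log_nonneg h0) fun i => ?_
  have hp := eigp_nonneg (Ω ∘ (cut A q).symm) i
  have hs := eigp_sum (Ω ∘ (cut A q).symm) (p7_nsq_cut A Ω hΩ)
  have hp1 : eigp (Ω ∘ (cut A q).symm) i ≤ 1 := by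
    rw [← hs]
    exact Finset.single_le_sum (fun j _ => eigp_nonneg _ j) (Finset.mem_univ i)
  have hr1 : reg ((q : ℝ) ^ A.card) ε (eigp (Ω ∘ (cut A q).symm) i) ≤ 1 := by
    rw [reg, div_le_one hd]
    nlinarith
  have hr0 := p7_reg_pos (d := (q : ℝ) ^ A.card) (by positivity) hε hp
  have h3 := Real.log_nonpos hr0.le hr1
  rw [abs_of_nonneg (by linarith), ← Real.log_inv]
  refine Real.log_le_log (inv_pos.2 hr0) ?_
  rw [reg, inv_div]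
  exact div_le_div_of_nonneg_left hd.le hε (by linarith)

end lattice

end Vale.Agent.P356.PH
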