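import Vale.Agent.P356.PH.Defs
import Vale.Agent.P356.PH.Ev

/-!
P4a: the generator `DD`.
-/

set_option linter.all false

namespace Vale.Agent.P356.PH

open Matrix Finset Vale.Agent.P356 Vale.Agent.P356.SV Vale.Agent.P356.Path MeasureTheory
open scoped BigOperators ComplexOrder Kronecker Matrix.Norms.L2Operator

section P4
variable {N : Type*} [Fintype N] [DecidableEq N] {Δ : ℝ} {w : ℝ → ℝ}

theorem DD_ii (H V : Matrix N N ℂ) (a b : ℝ) :
    IntervalIntegrable (fun u => ev H u V) volume a b :=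
  (ev_cont H V).intervalIntegrable a b

theorem DD_inner_cont (H V : Matrix N N ℂ) :
    Continuous (fun t : ℝ => ∫ u in (0 : ℝ)..t, ev H u V) :=
  intervalIntegral.continuous_primitive (fun a b => DD_ii H V a b) 0

theorem DD_inner_le {H : Matrix N N ℂ} (hH : H.IsHermitian) (V : Matrix N N ℂ) (t : ℝ) :
    ‖∫ u in (0 : ℝ)..t, ev H u V‖ ≤ |t| * ‖V‖ := by
  have h := intervalIntegral.norm_integral_le_of_norm_le_const (a := (0 : ℝ)) (b := t)
    (f := fun u => ev H u V) (C := ‖V‖) (fun u _ => (ev_norm hH u V).le)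
  rw [sub_zero] at h
  rw [mul_comm]
  exact h

theorem DD_meas (hw : IsFilter Δ w) (H V : Matrix N N ℂ) :
    Continuous (fun t : ℝ => ((w t : ℝ) : ℂ) • ∫ u in (0 : ℝ)..t, ev H u V) :=
  (Complex.continuous_ofReal.comp hw.cont).smul (DD_inner_cont H V)

theorem DD_bound {H : Matrix N N ℂ} (hH : H.IsHermitian) (V : Matrix N N ℂ) (t : ℝ) :
    ‖((w t : ℝ) : ℂ) • ∫ u in (0 : ℝ)..t, ev H u V‖ ≤ (|t| * |w t|) * ‖V‖ := by
  rw [norm_smul, Complex.norm_real, Real.norm_eq_abs]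
  have h := mul_le_mul_of_nonneg_left (DD_inner_le hH V t) (abs_nonneg (w t))
  calc |w t| * ‖∫ u in (0 : ℝ)..t, ev H u V‖ ≤ |w t| * (|t| * ‖V‖) := h
    _ = _ := by ring

theorem DD_mom1 (hw : IsFilter Δ w) : Integrable (fun t => |t| * |w t|) := by
  have h := hw.mom 1
  simpa only [pow_one] using h

theorem DD_integrable (hw : IsFilter Δ w) {H : Matrix N N ℂ} (hH : H.IsHermitian)
    (V : Matrix N N ℂ) :
    Integrable (fun t : ℝ => ((w t : ℝ) : ℂ) • ∫ u in (0 : ℝ)..t, ev H u V) := by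
  refine Integrable.mono' ((DD_mom1 hw).mul_const ‖V‖) (DD_meas hw H V).aestronglyMeasurable ?_
  exact Filter.Eventually.of_forall fun t => DD_bound hH V t

theorem DD_norm (hw : IsFilter Δ w) {H : Matrix N N ℂ} (hH : H.IsHermitian) (V : Matrix N N ℂ) :
    ‖DD w H V‖ ≤ (∫ t, |t| * |w t|) * ‖V‖ := by
  rw [DD, ← integral_mul_const]
  exact norm_integral_le_of_norm_le ((DD_mom1 hw).mul_const ‖V‖)
    (Filter.Eventually.of_forall fun t => DD_bound hH V t)

theorem DD_herm (hw : IsFilter Δ w) {H V : Matrix N N ℂ} (hH : H.IsHermitian)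
    (hV : V.IsHermitian) : (DD w H V).IsHermitian := by
  have h1 : ∀ t : ℝ, star (∫ u in (0 : ℝ)..t, ev H u V) = ∫ u in (0 : ℝ)..t, ev H u V := by
    intro t
    have h := ContinuousLinearMap.intervalIntegral_comp_comm
      ((starL' ℝ : Matrix N N ℂ ≃L[ℝ] Matrix N N ℂ) : Matrix N N ℂ →L[ℝ] Matrix N N ℂ)
      (DD_ii H V 0 t)
    have h2 : ∀ u : ℝ, star (ev H u V) = ev H u V := fun u => (ev_herm hH hV u)
    have h3 : (∫ u in (0 : ℝ)..t, star (ev H u V)) = star (∫ u in (0 : ℝ)..t, ev H u V) := h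
    rw [← h3]
    simp only [h2]
  have h := ContinuousLinearMap.integral_comp_comm
      ((starL' ℝ : Matrix N N ℂ ≃L[ℝ] Matrix N N ℂ) : Matrix N N ℂ →L[ℝ] Matrix N N ℂ)
      (DD_integrable hw hH V)
  have h3 : (∫ t : ℝ, star (((w t : ℝ) : ℂ) • ∫ u in (0 : ℝ)..t, ev H u V)) =
      star (DD w H V) := h
  have h4 : star (DD w H V) = DD w H V := by
    rw [← h3]
    simp only [star_smul, h1]
    rw [DD]
    simp only [RCLike.star_def, Complex.conj_ofReal]
  exact h4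

theorem DD_sum (hw : IsFilter Δ w) {H : Matrix N N ℂ} (hH : H.IsHermitian) {ι : Type*}
    (s : Finset ι) (V : ι → Matrix N N ℂ) :
    DD w H (∑ i ∈ s, V i) = ∑ i ∈ s, DD w H (V i) := by
  have h1 : ∀ t : ℝ, ((w t : ℝ) : ℂ) • ∫ u in (0 : ℝ)..t, ev H u (∑ i ∈ s, V i) =
      ∑ i ∈ s, ((w t : ℝ) : ℂ) • ∫ u in (0 : ℝ)..t, ev H u (V i) := by
    intro t
    rw [← Finset.smul_sum, ← intervalIntegral.integral_finset_sum (fun i _ => DD_ii H (V i) 0 t)]
    simp only [ev_sum]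
  simp only [DD, h1]
  exact integral_finset_sum s fun i _ => DD_integrable hw hH (V i)

theorem DD_add (hw : IsFilter Δ w) {H : Matrix N N ℂ} (hH : H.IsHermitian)
    (V V' : Matrix N N ℂ) : DD w H (V + V') = DD w H V + DD w H V' := by
  have h1 : ∀ t : ℝ, ((w t : ℝ) : ℂ) • ∫ u in (0 : ℝ)..t, ev H u (V + V') =
      ((w t : ℝ) : ℂ) • (∫ u in (0 : ℝ)..t, ev H u V) +
      ((w t : ℝ) : ℂ) • ∫ u in (0 : ℝ)..t, ev H u V' := by
    intro t
    rw [← smul_add, ← intervalIntegral.integral_add (DD_ii H V 0 t) (DD_ii H V' 0 t)]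
    simp only [ev_add]
  simp only [DD, h1]
  exact integral_add (DD_integrable hw hH V) (DD_integrable hw hH V')

theorem DD_sub (hw : IsFilter Δ w) {H : Matrix N N ℂ} (hH : H.IsHermitian)
    (V V' : Matrix N N ℂ) : DD w H (V - V') = DD w H V - DD w H V' := by
  have h1 : ∀ t : ℝ, ((w t : ℝ) : ℂ) • ∫ u in (0 : ℝ)..t, ev H u (V - V') =
      ((w t : ℝ) : ℂ) • (∫ u in (0 : ℝ)..t, ev H u V) -
      ((w t : ℝ) : ℂ) • ∫ u in (0 : ℝ)..t, ev H u V' := by
    intro t
    rw [← smul_sub, ← intervalIntegral.integral_sub (DD_ii H V 0 t) (DD_ii H V' 0 t)]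
    simp only [ev_sub]
  simp only [DD, h1]
  exact integral_sub (DD_integrable hw hH V) (DD_integrable hw hH V')

theorem DD_zero (w : ℝ → ℝ) (H : Matrix N N ℂ) : DD w H 0 = 0 := by
  have h1 : ∀ t : ℝ, ((w t : ℝ) : ℂ) • ∫ u in (0 : ℝ)..t, ev H u (0 : Matrix N N ℂ) = 0 := by
    intro t
    have h2 : ∀ u : ℝ, ev H u (0 : Matrix N N ℂ) = 0 := fun u => by
      rw [ev, Matrix.mul_zero, Matrix.zero_mul]
    simp only [h2, intervalIntegral.integral_zero, smul_zero]
  simp only [DD, h1, integral_zero]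

theorem DD_actsOn {V : Type*} [Fintype V] [DecidableEq V] {q : ℕ} {S : Finset V} {H A : Op V q}
    (hH : ActsOn S H) (hA : ActsOn S A) (w : ℝ → ℝ) : ActsOn S (DD w H A) := by
  rw [← ph_mem_phSub]
  by_contra hcon
  obtain ⟨f, hf1, hf2⟩ := Submodule.exists_le_ker_of_notMem hcon
  have hf3 : ∀ B : Op V q, ActsOn S B → f B = 0 := fun B hB =>
    hf2 (ph_mem_phSub.2 hB)
  have hf4 : ∀ B : Op V q, ActsOn S B → (LinearMap.toContinuousLinearMap f) B = 0 := hf3
  have h1 : ∀ t : ℝ, ActsOn S (∫ u in (0 : ℝ)..t, ev H u A) := by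
    intro t
    rw [← ph_mem_phSub]
    by_contra hcon'
    obtain ⟨g, hg1, hg2⟩ := Submodule.exists_le_ker_of_notMem hcon'
    have h := ContinuousLinearMap.intervalIntegral_comp_comm
      (LinearMap.toContinuousLinearMap g) (DD_ii H A 0 t)
    have hg4 : ∀ B : Op V q, ActsOn S B → (LinearMap.toContinuousLinearMap g) B = 0 :=
      fun B hB => hg2 (ph_mem_phSub.2 hB)
    have h2 : ∀ u : ℝ, (LinearMap.toContinuousLinearMap g) (ev H u A) = 0 := fun u =>
      hg4 _ (ev_actsOn hH hA u)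
    simp only [h2, intervalIntegral.integral_zero] at h
    exact hg1 h.symm
  apply hf1
  by_cases hi : Integrable (fun t : ℝ => ((w t : ℝ) : ℂ) • ∫ u in (0 : ℝ)..t, ev H u A)
  · have h := ContinuousLinearMap.integral_comp_comm (LinearMap.toContinuousLinearMap f) hi
    have h2 : ∀ t : ℝ, (LinearMap.toContinuousLinearMap f)
        (((w t : ℝ) : ℂ) • ∫ u in (0 : ℝ)..t, ev H u A) = 0 := fun t =>
      hf4 _ (ph_acts_smul _ (h1 t))
    simp only [h2, integral_zero] at h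
    exact h.symm
  · rw [DD, integral_undef hi, map_zero]

end P4

end Vale.Agent.P356.PH
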