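import Vale.Agent.P356.PH.Ev
import Vale.Agent.P356.PH.LR

/-!
Locality of the generator of the quasi-adiabatic continuation: the change of `D(v)` when the ball
is enlarged.
-/

set_option linter.all false

namespace Vale.Agent.P356.PH

open Matrix Finset Vale.Agent.P356 Vale.Agent.P356.SV Vale.Agent.P356.Path MeasureTheory
open scoped BigOperators ComplexOrder Kronecker Matrix.Norms.L2Operator

/-- power bound for the factorial tail -/
theorem h160_tail {x : ℝ} (hx : 0 ≤ x) {m : ℕ} (hm : 1 ≤ m) (h : Real.exp 2 * x ≤ m) :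
    x ^ m / m.factorial ≤ (Nat.factorial 10 : ℝ) * 2 ^ 10 / ((m : ℝ) + 1) ^ 10 := by
  have hm0 : (0 : ℝ) < m := by exact_mod_cast hm
  have hf : (0 : ℝ) < m.factorial := by exact_mod_cast Nat.factorial_pos m
  have e2 : 0 < Real.exp 2 := Real.exp_pos 2
  have em : 0 < Real.exp m := Real.exp_pos _
  have h1 : (m : ℝ) ^ m / m.factorial ≤ Real.exp m := Real.pow_div_factorial_le_exp _ hm0.le m
  have h2 : (Real.exp 2) ^ m * x ^ m ≤ (m : ℝ) ^ m := by
    rw [← mul_pow]
    exact pow_le_pow_left₀ (by positivity) h m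
  have h6 : Real.exp m * (x ^ m / m.factorial) ≤ 1 := by
    have h4 : (Real.exp 2) ^ m * (x ^ m / m.factorial) ≤ Real.exp m := by
      refine le_trans ?_ h1
      rw [← mul_div_assoc]
      exact div_le_div_of_nonneg_right h2 hf.le
    have h5 : (Real.exp 2) ^ m = Real.exp m * Real.exp m := by
      rw [← Real.exp_nat_mul, ← Real.exp_add]
      congr 1
      ring
    rw [h5] at h4
    have h7 : Real.exp m * (Real.exp m * (x ^ m / m.factorial)) ≤ Real.exp m * 1 := by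
      rw [mul_one, ← mul_assoc]; exact h4
    exact le_of_mul_le_mul_left h7 em
  have h8 : ((m : ℝ)) ^ 10 / (Nat.factorial 10 : ℝ) ≤ Real.exp m :=
    Real.pow_div_factorial_le_exp _ hm0.le 10
  have hy : 0 ≤ x ^ m / m.factorial := by positivity
  have h9 : (m : ℝ) ^ 10 / (Nat.factorial 10 : ℝ) * (x ^ m / m.factorial) ≤ 1 :=
    le_trans (mul_le_mul_of_nonneg_right h8 hy) h6
  have hF : (0 : ℝ) < (Nat.factorial 10 : ℝ) := by positivity
  rw [le_div_iff₀ (by positivity)]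
  have h10 : ((m : ℝ) + 1) ^ 10 ≤ 2 ^ 10 * (m : ℝ) ^ 10 := by
    rw [← mul_pow]
    refine pow_le_pow_left₀ (by positivity) ?_ 10
    have : (1 : ℝ) ≤ m := by exact_mod_cast hm
    linarith
  calc x ^ m / m.factorial * ((m : ℝ) + 1) ^ 10
      ≤ x ^ m / m.factorial * (2 ^ 10 * (m : ℝ) ^ 10) := mul_le_mul_of_nonneg_left h10 hy
    _ = (Nat.factorial 10 : ℝ) * 2 ^ 10 *
        ((m : ℝ) ^ 10 / (Nat.factorial 10 : ℝ) * (x ^ m / m.factorial)) := by
        field_simp
    _ ≤ (Nat.factorial 10 : ℝ) * 2 ^ 10 * 1 :=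
        mul_le_mul_of_nonneg_left h9 (by positivity)
    _ = _ := by ring

/-- the pointwise bound -/
theorem h160_point {R : ℕ} {J : ℝ} (hJ : 0 ≤ J) : ∃ C : ℝ, 0 ≤ C ∧
    ∀ (L q : ℕ) (g : Finset (Site L) → Op (Site L) q), Terms L q R J g →
    ∀ (x : Site L) (r : ℕ), ∀ X : Finset (Site L), x ∈ X →
    (∀ y ∈ X, ∀ z ∈ X, dist1 y z ≤ R) → ∀ v : Op (Site L) q, ActsOn X v → ∀ u : ℝ,
    ‖ev (Hr g x (r + 1)) u v - ev (Hr g x r) u v‖ ≤
      C * ‖v‖ / (1 + (r : ℝ)) ^ 8 * (1 + |u| ^ 8) := by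
  have hk : 0 ≤ kap R J := by unfold kap; positivity
  set κ := kap R J with hκ
  set a : ℝ := 3 * R + 1 with ha
  have ha1 : 1 ≤ a := by rw [ha]; have : (0 : ℝ) ≤ R := by positivity
                         linarith
  set K : ℝ := 2 * J * NR R with hK
  have hK0 : 0 ≤ K := by rw [hK]; positivity
  set C1 : ℝ := 2 + 2 * (Real.exp 2 * κ) ^ 8 * 2 ^ 8 +
    K * (9 * a ^ 2) * ((Nat.factorial 10 : ℝ) * 2 ^ 10) with hC1
  have hC10 : 0 ≤ C1 := by rw [hC1]; positivity
  refine ⟨C1 * a ^ 8, by positivity, ?_⟩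
  intro L q g hg x r X hx hX v hv u
  have hHr : ∀ s, (Hr g x s).IsHermitian := by
    intro s
    unfold Hr NA.HB
    unfold Matrix.IsHermitian
    rw [Matrix.conjTranspose_sum]
    exact Finset.sum_congr rfl fun Y _ => hg.herm Y
  have triv : ‖ev (Hr g x (r + 1)) u v - ev (Hr g x r) u v‖ ≤ 2 * ‖v‖ := by
    refine (norm_sub_le _ _).trans ?_
    rw [ev_norm (hHr _), ev_norm (hHr _)]
    linarith
  have hv0 := norm_nonneg v
  have hu8 : 0 ≤ |u| ^ 8 := by positivity
  set m : ℕ := (r - 2 * R) / (R + 1) with hm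
  have hmr : (1 : ℝ) + r ≤ ((m : ℝ) + 1) * a := by
    have h1 : r - 2 * R < (m + 1) * (R + 1) := by
      rw [hm]
      have := Nat.lt_mul_div_succ (r - 2 * R) (Nat.succ_pos R)
      rw [Nat.succ_eq_add_one] at this
      linarith [this, mul_comm (R + 1) ((r - 2 * R) / (R + 1) + 1)]
    have h2 : 1 + r ≤ (m + 1) * (3 * R + 1) := by
      have h3 : r + 1 ≤ (m + 1) * (R + 1) + 2 * R := by omega
      have h4 : (m + 1) * (3 * R + 1) = (m + 1) * (R + 1) + 2 * R + m * (2 * R) := by ring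
      rw [h4]
      have := Nat.zero_le (m * (2 * R))
      omega
    rw [ha]
    exact_mod_cast h2
  have hr0 : (0 : ℝ) < 1 + r := by positivity
  -- it suffices to bound by `C1 * ‖v‖ / (m+1)^8 * (1 + |u|^8)`
  have key : ‖ev (Hr g x (r + 1)) u v - ev (Hr g x r) u v‖ ≤
      C1 * ‖v‖ / ((m : ℝ) + 1) ^ 8 * (1 + |u| ^ 8) := by
    rcases Nat.eq_zero_or_pos m with h0 | h0
    · rw [h0]
      refine triv.trans ?_
      have h1 : 2 ≤ C1 := by
        rw [hC1]
        have : 0 ≤ 2 * (Real.exp 2 * κ) ^ 8 * 2 ^ 8 := by positivity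
        have : 0 ≤ K * (9 * a ^ 2) * ((Nat.factorial 10 : ℝ) * 2 ^ 10) := by positivity
        linarith
      simp only [Nat.cast_zero, zero_add, one_pow, div_one]
      calc 2 * ‖v‖ ≤ C1 * ‖v‖ * 1 := by
            rw [mul_one]; exact mul_le_mul_of_nonneg_right h1 hv0
        _ ≤ C1 * ‖v‖ * (1 + |u| ^ 8) :=
            mul_le_mul_of_nonneg_left (by linarith) (by positivity)
    · have hm0 : (0 : ℝ) < m := by exact_mod_cast h0
      have hm1 : (1 : ℝ) ≤ m := by exact_mod_cast h0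
      have hmR : m * R + 2 * R ≤ r := by
        have h1 : m * (R + 1) ≤ r - 2 * R := Nat.div_mul_le_self _ _
        have h2 : m * (R + 1) = m * R + m := by ring
        omega
      rcases le_or_gt (Real.exp 2 * (κ * |u|)) (m : ℝ) with hc | hc
      · have h1 := ev_step hJ hg x r m hmR X hx hX v hv u
        have h2 := h160_tail (x := κ * |u|) (by positivity) h0 hc
        have h3 : (2 * (r : ℝ) + 3) ^ 2 ≤ 9 * a ^ 2 * ((m : ℝ) + 1) ^ 2 := by
          have h4 : (2 * (r : ℝ) + 3) ≤ 3 * (((m : ℝ) + 1) * a) := by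
            have : (0 : ℝ) ≤ r := by positivity
            linarith
          calc (2 * (r : ℝ) + 3) ^ 2 ≤ (3 * (((m : ℝ) + 1) * a)) ^ 2 :=
                pow_le_pow_left₀ (by positivity) h4 2
            _ = _ := by ring
        have hu1 : |u| ≤ 1 + |u| ^ 8 := by
          rcases le_or_gt (|u|) 1 with h | h
          · linarith
          · have : |u| ≤ |u| ^ 8 := by
              calc |u| = |u| ^ 1 := (pow_one _).symm
                _ ≤ |u| ^ 8 := pow_le_pow_right₀ h.le (by norm_num)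
            linarith
        have hp : (0 : ℝ) < (m : ℝ) + 1 := by positivity
        calc _ ≤ 2 * J * NR R * (2 * r + 3) ^ 2 * ‖v‖ * |u| *
              ((κ * |u|) ^ m / m.factorial) := h1
          _ ≤ 2 * J * NR R * (9 * a ^ 2 * ((m : ℝ) + 1) ^ 2) * ‖v‖ * (1 + |u| ^ 8) *
              ((Nat.factorial 10 : ℝ) * 2 ^ 10 / ((m : ℝ) + 1) ^ 10) := by
              gcongr
          _ = K * (9 * a ^ 2) * ((Nat.factorial 10 : ℝ) * 2 ^ 10) * ‖v‖ / ((m : ℝ) + 1) ^ 8 *
              (1 + |u| ^ 8) := by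
              rw [hK]
              field_simp
          _ ≤ C1 * ‖v‖ / ((m : ℝ) + 1) ^ 8 * (1 + |u| ^ 8) := by
              have h5 : K * (9 * a ^ 2) * ((Nat.factorial 10 : ℝ) * 2 ^ 10) ≤ C1 := by
                rw [hC1]
                have : 0 ≤ 2 * (Real.exp 2 * κ) ^ 8 * 2 ^ 8 := by positivity
                linarith
              gcongr
      · refine triv.trans ?_
        have hp : (0 : ℝ) < (m : ℝ) + 1 := by positivity
        have h1 : ((m : ℝ) + 1) ^ 8 ≤ (Real.exp 2 * κ) ^ 8 * 2 ^ 8 * |u| ^ 8 := by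
          rw [← mul_pow, ← mul_pow]
          refine pow_le_pow_left₀ hp.le ?_ 8
          nlinarith [hc, hm1]
        have h2 : 2 ≤ 2 * (Real.exp 2 * κ) ^ 8 * 2 ^ 8 / ((m : ℝ) + 1) ^ 8 * (1 + |u| ^ 8) := by
          rw [div_mul_eq_mul_div, le_div_iff₀ (by positivity)]
          have h3 : 0 ≤ (Real.exp 2 * κ) ^ 8 * 2 ^ 8 := by positivity
          nlinarith [h1, h3]
        calc 2 * ‖v‖ ≤ (2 * (Real.exp 2 * κ) ^ 8 * 2 ^ 8 / ((m : ℝ) + 1) ^ 8 *
              (1 + |u| ^ 8)) * ‖v‖ := mul_le_mul_of_nonneg_right h2 hv0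
          _ = 2 * (Real.exp 2 * κ) ^ 8 * 2 ^ 8 * ‖v‖ / ((m : ℝ) + 1) ^ 8 * (1 + |u| ^ 8) := by
              ring
          _ ≤ C1 * ‖v‖ / ((m : ℝ) + 1) ^ 8 * (1 + |u| ^ 8) := by
              have h5 : 2 * (Real.exp 2 * κ) ^ 8 * 2 ^ 8 ≤ C1 := by
                rw [hC1]
                have : 0 ≤ K * (9 * a ^ 2) * ((Nat.factorial 10 : ℝ) * 2 ^ 10) := by positivity
                linarith
              gcongr
  refine key.trans ?_
  have hp : (0 : ℝ) < (m : ℝ) + 1 := by positivity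
  have h1 : (1 + (r : ℝ)) ^ 8 ≤ (((m : ℝ) + 1) * a) ^ 8 := pow_le_pow_left₀ hr0.le hmr 8
  have h2 : C1 * ‖v‖ / ((m : ℝ) + 1) ^ 8 ≤ C1 * a ^ 8 * ‖v‖ / (1 + (r : ℝ)) ^ 8 := by
    rw [div_le_div_iff₀ (by positivity) (by positivity)]
    calc C1 * ‖v‖ * (1 + (r : ℝ)) ^ 8 ≤ C1 * ‖v‖ * (((m : ℝ) + 1) * a) ^ 8 :=
          mul_le_mul_of_nonneg_left h1 (by positivity)
      _ = _ := by ring
  exact mul_le_mul_of_nonneg_right h2 (by positivity)

/-- integrability of the outer integrand -/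
theorem h160_integrable {N : Type*} [Fintype N] [DecidableEq N] {Δ : ℝ} {w : ℝ → ℝ}
    (hw : IsFilter Δ w) {H : Matrix N N ℂ} (hH : H.IsHermitian) (V : Matrix N N ℂ) :
    Integrable (fun t : ℝ => ((w t : ℝ) : ℂ) • ∫ u in (0 : ℝ)..t, ev H u V) := by
  have hc : Continuous (fun t : ℝ => ∫ u in (0 : ℝ)..t, ev H u V) :=
    intervalIntegral.continuous_primitive
      (fun a b => (ev_cont H V).intervalIntegrable a b) 0
  have h1 : Integrable (fun t : ℝ => (|t| ^ 1 * |w t|) * ‖V‖) := (hw.mom 1).mul_const _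
  refine h1.mono' ?_ ?_
  · exact ((Complex.continuous_ofReal.comp hw.cont).smul hc).aestronglyMeasurable
  · refine Filter.Eventually.of_forall fun t => ?_
    rw [norm_smul, Complex.norm_real, Real.norm_eq_abs, pow_one]
    have h2 : ‖∫ u in (0 : ℝ)..t, ev H u V‖ ≤ ‖V‖ * |t - 0| :=
      intervalIntegral.norm_integral_le_of_norm_le_const fun u _ => (ev_norm hH u V).le
    rw [sub_zero] at h2
    calc |w t| * ‖∫ u in (0 : ℝ)..t, ev H u V‖ ≤ |w t| * (‖V‖ * |t|) :=
          mul_le_mul_of_nonneg_left h2 (abs_nonneg _)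
      _ = |t| * |w t| * ‖V‖ := by ring

/-- P4b -/
theorem DD_step {R : ℕ} {J Δ : ℝ} {w : ℝ → ℝ} (hJ : 0 ≤ J) (hw : IsFilter Δ w) :
    ∃ C : ℝ, 0 ≤ C ∧
    ∀ (L q : ℕ) (g : Finset (Site L) → Op (Site L) q), Terms L q R J g →
    ∀ (x : Site L) (r : ℕ), R ≤ r → ∀ X : Finset (Site L), x ∈ X →
    (∀ y ∈ X, ∀ z ∈ X, dist1 y z ≤ R) → ∀ v : Op (Site L) q, ActsOn X v →
    ‖DD w (Hr g x (r + 1)) v - DD w (Hr g x r) v‖ ≤ C * ‖v‖ / (1 + (r : ℝ)) ^ 8 := by
  obtain ⟨C, hC0, hC⟩ := h160_point (R := R) hJ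
  set M : ℝ := ∫ t : ℝ, (|t| ^ 1 * |w t| + |t| ^ 9 * |w t|) with hM
  have hMint : Integrable (fun t : ℝ => |t| ^ 1 * |w t| + |t| ^ 9 * |w t|) :=
    (hw.mom 1).add (hw.mom 9)
  have hM0 : 0 ≤ M := integral_nonneg fun t => by positivity
  refine ⟨C * M, by positivity, ?_⟩
  intro L q g hg x r hr X hx hX v hv
  have hHr : ∀ s, (Hr g x s).IsHermitian := by
    intro s
    unfold Hr NA.HB
    unfold Matrix.IsHermitian
    rw [Matrix.conjTranspose_sum]
    exact Finset.sum_congr rfl fun Y _ => hg.herm Y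
  unfold DD
  rw [← integral_sub (h160_integrable hw (hHr _) v) (h160_integrable hw (hHr _) v)]
  set c : ℝ := C * ‖v‖ / (1 + (r : ℝ)) ^ 8 with hc
  have hc0 : 0 ≤ c := by rw [hc]; positivity
  have hint : Integrable (fun t : ℝ => c * (|t| ^ 1 * |w t| + |t| ^ 9 * |w t|)) :=
    hMint.const_mul c
  refine (norm_integral_le_of_norm_le hint (Filter.Eventually.of_forall fun t => ?_)).trans ?_
  · rw [← smul_sub, norm_smul, Complex.norm_real, Real.norm_eq_abs,
      ← intervalIntegral.integral_sub ((ev_cont _ v).intervalIntegrable 0 t)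
        ((ev_cont _ v).intervalIntegrable 0 t)]
    have h2 : ‖∫ u in (0 : ℝ)..t, (ev (Hr g x (r + 1)) u v - ev (Hr g x r) u v)‖ ≤
        (c * (1 + |t| ^ 8)) * |t - 0| := by
      refine intervalIntegral.norm_integral_le_of_norm_le_const fun u hu => ?_
      refine (hC L q g hg x r X hx hX v hv u).trans ?_
      rw [← hc]
      have hut : |u| ≤ |t| := by
        rw [Set.uIoc_eq_union] at hu
        rcases hu with hu | hu
        · rw [abs_of_pos hu.1]
          exact hu.2.trans (le_abs_self t)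
        · rw [abs_of_nonpos hu.2]
          have := hu.1
          calc -u ≤ -t := by linarith
            _ ≤ |t| := neg_le_abs t
      have : |u| ^ 8 ≤ |t| ^ 8 := pow_le_pow_left₀ (abs_nonneg _) hut 8
      exact mul_le_mul_of_nonneg_left (by linarith) hc0
    rw [sub_zero] at h2
    calc |w t| * ‖∫ u in (0 : ℝ)..t, (ev (Hr g x (r + 1)) u v - ev (Hr g x r) u v)‖
        ≤ |w t| * ((c * (1 + |t| ^ 8)) * |t|) := mul_le_mul_of_nonneg_left h2 (abs_nonneg _)
      _ = c * (|t| ^ 1 * |w t| + |t| ^ 9 * |w t|) := by ring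
  · rw [integral_const_mul, ← hM, hc]
    apply le_of_eq
    ring

end Vale.Agent.P356.PH
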