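import Vale.Agent.P356.PH.SieC
import Vale.Agent.P356.PH.Act
import Vale.Agent.P356.PH.Ev

/-!
Block P6: small incremental entangling.
-/

set_option linter.all false

namespace Vale.Agent.P356.PH

open Matrix Finset Vale.Agent.P356 Vale.Agent.P356.SV Vale.Agent.P356.Path
open scoped BigOperators ComplexOrder Kronecker Matrix.Norms.L2Operator

section abs
variable {N α β : Type*} [Fintype N] [Fintype α] [Fintype β] [DecidableEq N] [DecidableEq α]
  [DecidableEq β]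

theorem sie_half (e : N ≃ α × β) (ψ : N → ℂ) (hψ : nsq ψ = 1) {U : Matrix α α ℂ}
    (hU : U * Uᴴ = 1) {s : α → ℝ} (hs : redA (ψ ∘ e.symm) = sieOp U (fun i => (s i : ℂ)))
    (l : α → ℝ) (h1 : ∑ i, Real.exp (l i) ≤ 1) (h2 : ∀ i, s i * Real.exp (-l i) ≤ 2)
    {κ : Type*} [Fintype κ] (k : κ → ℂ) (X : κ → Matrix α α ℂ) (Y : κ → Matrix β β ℂ)
    (hX : ∀ i, Contr (X i)ᴴ) (hY : ∀ i, Contr (Y i)) (T : Matrix N N ℂ)
    (hT : T = ∑ i, k i • (opL e (X i) * opR e (Y i))) (z : ℂ) (hz : z.re = 1 / 2) :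
    ‖sieF l (sieT e ψ U T) z‖ ≤ 2 * ∑ i, ‖k i‖ := by
  have hre : ∀ i, (z * (l i : ℂ)).re = l i / 2 := by
    intro i
    rw [Complex.re_mul_ofReal, hz]
    ring
  have hf : ∑ i, ‖Complex.exp (z * l i)‖ ^ 2 ≤ 1 := by
    refine (le_of_eq ?_).trans h1
    refine Finset.sum_congr rfl fun i _ => ?_
    rw [Complex.norm_exp, hre, ← Real.exp_nat_mul]
    congr 1
    push_cast
    ring
  have hg : ∀ i, s i * ‖Complex.exp (-(z * l i))‖ ^ 2 ≤ 2 := by
    intro i
    have : ‖Complex.exp (-(z * l i))‖ ^ 2 = Real.exp (-l i) := by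
      rw [Complex.norm_exp, Complex.neg_re, hre, ← Real.exp_nat_mul]
      congr 1
      push_cast
      ring
    rw [this]
    exact h2 i
  rw [sieF_eq, hT]
  simp only [Finset.sum_mul, Finset.mul_sum, Matrix.smul_mul, Matrix.mul_smul,
    Matrix.sum_mulVec, Matrix.smul_mulVec, dotProduct_sum, dotProduct_smul, smul_eq_mul]
  refine (norm_sum_le _ _).trans (Finset.sum_le_sum fun i _ => ?_)
  rw [norm_mul, mul_comm]
  refine mul_le_mul_of_nonneg_right ?_ (norm_nonneg _)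
  have h3 := sie_prod e ψ hψ hU hs (fun i => Complex.exp (z * l i))
    (fun i => Complex.exp (-(z * l i))) (c := 2) (by norm_num) hf hg (X i) (hX i) (Y i) (hY i)
  nlinarith [norm_nonneg (star ψ ⬝ᵥ ((opL e (sieOp U (fun i => Complex.exp (z * l i))) *
    (opL e (X i) * opR e (Y i)) *
      opL e (sieOp U (fun i => Complex.exp (-(z * l i))))) *ᵥ ψ))]

theorem sie_star (M : Matrix N N ℂ) (ψ : N → ℂ) :
    star (star ψ ⬝ᵥ (M *ᵥ ψ)) = star ψ ⬝ᵥ (Mᴴ *ᵥ ψ) := by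
  rw [← star_dotProduct, star_mulVec, ← dotProduct_mulVec]

theorem sie_refl (e : N ≃ α × β) (ψ : N → ℂ) (U : Matrix α α ℂ) (l : α → ℝ) {T : Matrix N N ℂ}
    (hT : T.IsHermitian) (z : ℂ) :
    ‖sieF l (sieT e ψ U T) z‖ = ‖sieF l (sieT e ψ U T) (-(star z))‖ := by
  have h1 : (fun i => star (Complex.exp (z * (l i : ℂ)))) =
      fun i => Complex.exp (-(-(star z) * (l i : ℂ))) := by
    funext i
    rw [RCLike.star_def, ← Complex.exp_conj]
    congr 1
    simp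
  have h2 : (fun i => star (Complex.exp (-(z * (l i : ℂ))))) =
      fun i => Complex.exp (-(star z) * (l i : ℂ)) := by
    funext i
    rw [RCLike.star_def, ← Complex.exp_conj]
    congr 1
    simp
  rw [← norm_star, sieF_eq, sieF_eq, sie_star]
  rw [conjTranspose_mul, conjTranspose_mul, hT.eq, opL_conjTranspose, opL_conjTranspose,
    sieOp_conj, sieOp_conj, ← Matrix.mul_assoc, h1, h2]

theorem sie_imag (e : N ≃ α × β) (ψ : N → ℂ) (hψ : nsq ψ = 1) {U : Matrix α α ℂ}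
    (hU : U * Uᴴ = 1) (l : α → ℝ) (T : Matrix N N ℂ) (y : ℝ) :
    ‖sieF l (sieT e ψ U T) (y * Complex.I)‖ ≤ ‖T‖ := by
  have hU' : Uᴴ * U = 1 := mul_eq_one_comm.mp hU
  rw [sieF_eq]
  set V : Matrix N N ℂ := opL e (sieOp U (fun i => Complex.exp (y * Complex.I * l i))) with hV
  have h1 : opL e (sieOp U (fun i => Complex.exp (-(y * Complex.I * l i)))) = star V := by
    rw [hV, star_eq_conjTranspose, opL_conjTranspose, sieOp_conj]
    congr 2
    funext i
    rw [RCLike.star_def, ← Complex.exp_conj]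
    congr 1
    simp
  have hfg : ∀ f g : α → ℂ, (∀ i, f i * g i = 1) →
      opL e (sieOp U f) * opL e (sieOp U g) = 1 := by
    intro f g h
    rw [← opL_mul, sieOp_mul hU']
    have : (fun i => f i * g i) = fun _ => (1 : ℂ) := funext h
    rw [this, sieOp_one hU, opL_one]
  have h2 : V ∈ unitary (Matrix N N ℂ) := by
    rw [Unitary.mem_iff]
    constructor
    · rw [← h1, hV]
      refine hfg _ _ fun i => ?_
      rw [← Complex.exp_add]
      simp
    · rw [← h1, hV]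
      refine hfg _ _ fun i => ?_
      rw [← Complex.exp_add]
      simp
  rw [h1]
  refine (dot_le _ ψ ψ).trans ?_
  rw [hψ, Real.sqrt_one, mul_one, mul_one]
  have h3 : ‖V * T * star V‖ = ‖T‖ := by
    rw [CStarRing.norm_mul_mem_unitary _ (Unitary.star_mem h2),
      CStarRing.norm_mem_unitary_mul _ h2]
  exact h3.le

/-- abstract form of small incremental entangling -/
theorem sie_abs (e : N ≃ α × β) (ψ : N → ℂ) (hψ : nsq ψ = 1) {U : Matrix α α ℂ}
    (hU : U * Uᴴ = 1) {s : α → ℝ} (hs : redA (ψ ∘ e.symm) = sieOp U (fun i => (s i : ℂ)))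
    (l : α → ℝ) (h1 : ∑ i, Real.exp (l i) ≤ 1) (h2 : ∀ i, s i * Real.exp (-l i) ≤ 2)
    {κ : Type*} [Fintype κ] (k : κ → ℂ) (X : κ → Matrix α α ℂ) (Y : κ → Matrix β β ℂ)
    (hX : ∀ i, Contr (X i)ᴴ) (hY : ∀ i, Contr (Y i)) {T : Matrix N N ℂ} (hTh : T.IsHermitian)
    (hT : T = ∑ i, k i • (opL e (X i) * opR e (Y i))) {B : ℝ} (hB : 1 ≤ B)
    (hk : 2 * ∑ i, ‖k i‖ ≤ B * ‖T‖) :
    ‖star ψ ⬝ᵥ ((opL e (sieOp U (fun i => (l i : ℂ))) * T -
        T * opL e (sieOp U (fun i => (l i : ℂ)))) *ᵥ ψ)‖ ≤ 6 * (1 + Real.log B) * ‖T‖ := by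
  rw [← sie_comm e ψ hU]
  rcases (norm_nonneg T).eq_or_lt with h0 | h0
  · have hT0 : T = 0 := norm_eq_zero.mp h0.symm
    rw [hT0]
    have : ∀ i j, sieT e ψ U (0 : Matrix N N ℂ) i j = 0 := by
      intro i j
      simp [sieT]
    simp [this]
  refine sie_analytic l _ h0 hB (fun y => sie_imag e ψ hψ hU l T y) (fun y => ?_) (fun y => ?_)
  · refine (sie_half e ψ hψ hU hs l h1 h2 k X Y hX hY T hT _ ?_).trans hk
    simp
  · rw [sie_refl e ψ U l hTh]
    refine (sie_half e ψ hψ hU hs l h1 h2 k X Y hX hY T hT _ ?_).trans hk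
    simp

end abs

section lattice
variable {V : Type*} [Fintype V] [DecidableEq V] {q : ℕ}

theorem GG_eq (A : Finset V) (Ω : Conf V q → ℂ) (ε : ℝ) :
    GG A Ω ε = -opL (cut A q) (sieOp (eigU (Ω ∘ (cut A q).symm)) (fun i =>
      ((Real.log (reg ((q : ℝ) ^ A.card) ε (eigp (Ω ∘ (cut A q).symm) i)) : ℝ) : ℂ))) := by
  have h1 : -opL (cut A q) (sieOp (eigU (Ω ∘ (cut A q).symm)) (fun i =>
      ((Real.log (reg ((q : ℝ) ^ A.card) ε (eigp (Ω ∘ (cut A q).symm) i)) : ℝ) : ℂ))) =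
      (-1 : ℂ) • opL (cut A q) (sieOp (eigU (Ω ∘ (cut A q).symm)) (fun i =>
      ((Real.log (reg ((q : ℝ) ^ A.card) ε (eigp (Ω ∘ (cut A q).symm) i)) : ℝ) : ℂ))) := by
    rw [neg_smul, one_smul]
  rw [h1, ← opL_smul, GG, opOn, fOp, sieOp, ← Matrix.smul_mul, ← Matrix.mul_smul,
    ← diagonal_smul]
  congr 4
  funext i
  simp

theorem sie_out' (A Z : Finset V) (Ω : Conf V q → ℂ) (ε : ℝ) (T : Op V q)
    (hZ : ActsOn Z T) (hZA : Disjoint Z A) : GG A Ω ε * T - T * GG A Ω ε = 0 := by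
  obtain ⟨k, rfl⟩ := act_iff.mp hZ
  rw [GG, opOn_comm A Z hZA.symm, sub_self]

theorem sie_in' (A Z : Finset V) (Ω : Conf V q → ℂ) (ε : ℝ) (T : Op V q)
    (hZ : ActsOn Z T) (hZA : Z ⊆ A) :
    star Ω ⬝ᵥ ((GG A Ω ε * T - T * GG A Ω ε) *ᵥ Ω) = 0 := by
  obtain ⟨k, rfl⟩ := act_iff.mp (act_mono hZA hZ)
  set x := Ω ∘ (cut A q).symm with hx
  have h1 : GG A Ω ε * opOn A k - opOn A k * GG A Ω ε =
      opL (cut A q) (fOp x (fun i => -Real.log (reg ((q : ℝ) ^ A.card) ε (eigp x i))) * k -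
        k * fOp x (fun i => -Real.log (reg ((q : ℝ) ^ A.card) ε (eigp x i)))) := by
    rw [opL_sub, opL_mul, opL_mul]
    rfl
  rw [h1, expect_opL, ← hx, Matrix.mul_sub, Matrix.trace_sub]
  set G := fOp x (fun i => -Real.log (reg ((q : ℝ) ^ A.card) ε (eigp x i))) with hG
  have h2 : redA x * G = G * redA x := by
    have h3 : redA x = fOp x (eigp x) := redA_spec x
    rw [h3, hG, fOp_mul, fOp_mul]
    congr 1
    funext i
    ring
  have h4 : (redA x * (k * G)).trace = (redA x * (G * k)).trace := by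
    rw [← Matrix.mul_assoc, Matrix.trace_mul_comm, ← Matrix.mul_assoc, ← h2, Matrix.mul_assoc]
  rw [h4, sub_self]

theorem sie' (hq : 1 ≤ q) (A Z : Finset V) (Ω : Conf V q → ℂ) (hΩ : nsq Ω = 1) (ε : ℝ)
    (hε : 0 < ε) (hε1 : ε * (q : ℝ) ^ A.card ≤ 1) (T : Op V q) (hT : T.IsHermitian)
    (hZ : ActsOn Z T) :
    ‖star Ω ⬝ᵥ ((GG A Ω ε * T - T * GG A Ω ε) *ᵥ Ω)‖ ≤
      100 * ‖T‖ * (1 + Z.card * Real.log q) := by
  have hq1 : (1 : ℝ) ≤ q := by exact_mod_cast hq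
  have hlq : 0 ≤ Real.log q := Real.log_nonneg hq1
  rcases Z.eq_empty_or_nonempty with h0 | hne
  · rw [sie_out' A Z Ω ε T hZ (by rw [h0]; exact Finset.disjoint_empty_left A)]
    rw [Matrix.zero_mulVec, dotProduct_zero, norm_zero]
    positivity
  set e := cut A q with he
  set x := Ω ∘ e.symm with hx
  set d : ℝ := (q : ℝ) ^ A.card with hd
  have hd0 : 0 < d := by positivity
  set l : ({y // y ∈ A} → Fin q) → ℝ := fun i => Real.log (reg d ε (eigp x i)) with hl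
  have hreg : ∀ i, 0 < reg d ε (eigp x i) := by
    intro i
    have := eigp_nonneg x i
    unfold reg
    positivity
  have hexp : ∀ i, Real.exp (l i) = reg d ε (eigp x i) := fun i => Real.exp_log (hreg i)
  have hx1 : ∑ z, ‖x z‖ ^ 2 = 1 := by
    have := nsq_comp e Ω
    rw [hΩ] at this
    exact this
  have hcard : (Fintype.card ({y // y ∈ A} → Fin q) : ℝ) = d := by
    rw [Fintype.card_fun, Fintype.card_fin, Fintype.card_coe]
    push_cast
    rfl
  have h1 : ∑ i, Real.exp (l i) ≤ 1 := by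
    refine le_of_eq ?_
    simp only [hexp, reg]
    rw [← Finset.sum_div, Finset.sum_add_distrib, eigp_sum x hx1, Finset.sum_const,
      Finset.card_univ, nsmul_eq_mul, hcard]
    have : 1 + d * ε = 1 + ε * d := by ring
    rw [this, div_self]
    positivity
  have h2 : ∀ i, eigp x i * Real.exp (-l i) ≤ 2 := by
    intro i
    rw [Real.exp_neg, hexp, reg, inv_div]
    have h3 := eigp_nonneg x i
    rw [← mul_div_assoc, div_le_iff₀ (by positivity)]
    nlinarith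
  have hop : OpNormLe T ‖T‖ := (opNormLe_iff (norm_nonneg T)).mpr le_rfl
  obtain ⟨k, hk, hkJ, -⟩ := exists_kernel hZ hop (fun _ => hne)
  have h3 := b5_split A Z T k hk
  set B : ℝ := 2 * (q : ℝ) ^ (2 * Z.card) with hB
  have hqp : (1 : ℝ) ≤ (q : ℝ) ^ (2 * Z.card) := one_le_pow₀ hq1
  have hkB : 2 * ∑ uv : (Z → Fin q) × (Z → Fin q), ‖k uv.1 uv.2‖ ≤ B * ‖T‖ := by
    have h4 : ∑ uv : (Z → Fin q) × (Z → Fin q), ‖k uv.1 uv.2‖ ≤ (q : ℝ) ^ (2 * Z.card) * ‖T‖ := by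
      refine (Finset.sum_le_card_nsmul _ _ |‖T‖| (fun uv _ => hkJ _ _)).trans (le_of_eq ?_)
      rw [Finset.card_univ, Fintype.card_prod, Fintype.card_fun, Fintype.card_fin,
        Fintype.card_coe, nsmul_eq_mul, abs_of_nonneg (norm_nonneg T)]
      push_cast
      ring
    rw [hB]
    linarith
  have h5 := sie_abs e Ω hΩ (eigU_mul x) (s := eigp x) (redA_spec x) l h1 h2
    (fun uv : (Z → Fin q) × (Z → Fin q) => k uv.1 uv.2)
    (fun uv => uOn (jIn A) Z uv.1 uv.2) (fun uv => uOn (jOut A) Z uv.1 uv.2)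
    (fun uv => by rw [uOn_herm]; exact uOn_contr _ _ _ _) (fun uv => uOn_contr _ _ _ _)
    hT h3 (B := B) (by rw [hB]; linarith) hkB
  have h6 : GG A Ω ε * T - T * GG A Ω ε =
      -(opL e (sieOp (eigU x) (fun i => (l i : ℂ))) * T -
        T * opL e (sieOp (eigU x) (fun i => (l i : ℂ)))) := by
    rw [GG_eq]
    simp only [Matrix.neg_mul, Matrix.mul_neg]
    rw [neg_sub, sub_neg_eq_add, neg_add_eq_sub]
  rw [h6, Matrix.neg_mulVec, dotProduct_neg, norm_neg]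
  refine h5.trans ?_
  have h7 : Real.log B = Real.log 2 + 2 * Z.card * Real.log q := by
    rw [hB, Real.log_mul (by norm_num) (by positivity), Real.log_pow]
    push_cast
    ring
  rw [h7]
  have h8 : Real.log 2 < 1 := by
    have := Real.log_two_lt_d9
    linarith
  have h9 : 0 ≤ (Z.card : ℝ) * Real.log q := by positivity
  have h10 : 6 * (1 + (Real.log 2 + 2 * Z.card * Real.log q)) ≤
      100 * (1 + Z.card * Real.log q) := by nlinarith
  calc 6 * (1 + (Real.log 2 + 2 * Z.card * Real.log q)) * ‖T‖ ≤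
      100 * (1 + Z.card * Real.log q) * ‖T‖ :=
        mul_le_mul_of_nonneg_right h10 (norm_nonneg _)
    _ = _ := by ring

end lattice

section final
variable {V : Type} [Fintype V] [DecidableEq V] {q : ℕ}

/-- P6 small incremental entangling -/
theorem sie (hq : 1 ≤ q) (A Z : Finset V) (Ω : Conf V q → ℂ) (hΩ : nsq Ω = 1) (ε : ℝ)
    (hε : 0 < ε) (hε1 : ε * (q : ℝ) ^ A.card ≤ 1) (T : Op V q) (hT : T.IsHermitian)
    (hZ : ActsOn Z T) :
    |(star Ω ⬝ᵥ ((Complex.I • (GG A Ω ε * T - T * GG A Ω ε)) *ᵥ Ω)).re| ≤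
      100 * ‖T‖ * (1 + Z.card * Real.log q) := by
  refine (Complex.abs_re_le_norm _).trans ?_
  rw [Matrix.smul_mulVec, dotProduct_smul, norm_smul, Complex.norm_I, one_mul]
  exact sie' hq A Z Ω hΩ ε hε hε1 T hT hZ

theorem sie_in (hq : 1 ≤ q) (A Z : Finset V) (Ω : Conf V q → ℂ) (ε : ℝ) (T : Op V q)
    (hZ : ActsOn Z T) (hZA : Z ⊆ A) :
    star Ω ⬝ᵥ ((GG A Ω ε * T - T * GG A Ω ε) *ᵥ Ω) = 0 := sie_in' A Z Ω ε T hZ hZA

theorem sie_out (hq : 1 ≤ q) (A Z : Finset V) (Ω : Conf V q → ℂ) (ε : ℝ) (T : Op V q)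
    (hZ : ActsOn Z T) (hZA : Disjoint Z A) : GG A Ω ε * T - T * GG A Ω ε = 0 :=
  sie_out' A Z Ω ε T hZ hZA

end final

end Vale.Agent.P356.PH
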