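import Vale.Agent.P356.PH.Act
import Vale.Agent.P356.PH.DD
import Vale.Agent.P356.PH.DDLoc
import Vale.Agent.P356.PH.Sie

/-!
The commutator of the regularised modular operator with the generator is of the order of the
boundary.
-/

set_option linter.all false

namespace Vale.Agent.P356.PH

open Matrix Finset Vale.Agent.P356 Vale.Agent.P356.SV Vale.Agent.P356.Path
open scoped BigOperators ComplexOrder Kronecker Matrix.Norms.L2Operator

section lin
variable {N : Type*} [Fintype N] [DecidableEq N]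

/-- first order change of the expectation -/
noncomputable def cphi (G : Matrix N N ℂ) (Ω : N → ℂ) (T : Matrix N N ℂ) : ℝ :=
  (star Ω ⬝ᵥ ((Complex.I • (G * T - T * G)) *ᵥ Ω)).re

theorem cphi_add (G : Matrix N N ℂ) (Ω : N → ℂ) (T S : Matrix N N ℂ) :
    cphi G Ω (T + S) = cphi G Ω T + cphi G Ω S := by
  unfold cphi
  rw [← Complex.add_re, ← dotProduct_add, ← Matrix.add_mulVec, ← smul_add]
  congr 4
  rw [Matrix.mul_add, Matrix.add_mul]
  abel_nf

theorem cphi_zero (G : Matrix N N ℂ) (Ω : N → ℂ) : cphi G Ω 0 = 0 := by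
  unfold cphi
  simp

theorem cphi_sum (G : Matrix N N ℂ) (Ω : N → ℂ) {ι : Type*} (s : Finset ι)
    (T : ι → Matrix N N ℂ) : cphi G Ω (∑ i ∈ s, T i) = ∑ i ∈ s, cphi G Ω (T i) := by
  classical
  induction s using Finset.induction_on with
  | empty => simp [cphi_zero]
  | insert a s ha ih => rw [Finset.sum_insert ha, Finset.sum_insert ha, cphi_add, ih]

end lin

section count
variable {L : ℕ}

/-- the ball meets both sides -/
def Crs (A : Finset (Site L)) (x : Site L) (s : ℕ) : Prop :=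
  ¬ (ball x s ⊆ A ∨ Disjoint (ball x s) A)

open Classical in
theorem card_crs (A : Finset (Site L)) (s : ℕ) :
    ((univ : Finset (Site L)).filter (fun x => Crs A x s)).card ≤ (2 * s + 1) ^ 2 * bdry A := by
  set B := (univ : Finset (Site L × Site L)).filter
    (fun p => p.1 ∈ A ∧ p.2 ∉ A ∧ dist1 p.1 p.2 = 1) with hB
  have hsub : (univ : Finset (Site L)).filter (fun x => Crs A x s) ⊆
      B.biUnion (fun e => (univ : Finset (Site L)).filter (fun x => dist1 x e.1 ≤ s)) := by
    intro x hx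
    have hx' := (Finset.mem_filter.mp hx).2
    unfold Crs at hx'
    push Not at hx'
    obtain ⟨h1, h2⟩ := hx'
    have hfin : ∃ u v : Site L, u ∈ A ∧ v ∉ A ∧ dist1 u v = 1 ∧ dist1 x u ≤ s := by
      by_cases hxA : x ∈ A
      · obtain ⟨z, hz, hzA⟩ := Finset.not_subset.mp h1
        have hz' : dist1 z x ≤ s := by simpa [ball] using hz
        obtain ⟨u, v, hu, hv, huv, hxu, hyu⟩ := exists_edge A _ x z hxA hzA rfl
        refine ⟨u, v, hu, hv, huv, hxu.trans ?_⟩
        rw [dist1_comm]; exact hz'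
      · obtain ⟨y, hy, hyA⟩ := Finset.not_disjoint_iff.mp h2
        have hy' : dist1 y x ≤ s := by simpa [ball] using hy
        obtain ⟨u, v, hu, hv, huv, hxu, hyu⟩ := exists_edge A _ y x hyA hxA rfl
        exact ⟨u, v, hu, hv, huv, hyu.trans hy'⟩
    obtain ⟨u, v, hu, hv, huv, hxu⟩ := hfin
    simp only [mem_biUnion]
    refine ⟨(u, v), ?_, ?_⟩
    · rw [hB]; simp only [mem_filter, mem_univ, true_and]; exact ⟨hu, hv, huv⟩
    · simp only [mem_filter, mem_univ, true_and]; exact hxu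
  refine (Finset.card_le_card hsub).trans (Finset.card_biUnion_le.trans ?_)
  refine (Finset.sum_le_card_nsmul _ _ _ fun e _ => card_ball e.1 s).trans ?_
  rw [smul_eq_mul, mul_comm]
  rfl

theorem sum_inv_sq (n : ℕ) : ∑ k ∈ range n, 1 / (1 + (k : ℝ)) ^ 2 ≤ 2 := by
  have h : ∑ k ∈ range n, 1 / (1 + (k : ℝ)) ^ 2 ≤ 2 - 2 / ((n : ℝ) + 1) := by
    induction n with
    | zero => simp
    | succ n ih =>
      rw [Finset.sum_range_succ]
      have hn : (0 : ℝ) < 1 + n := by positivity
      have h1 : 1 / (1 + (n : ℝ)) ^ 2 ≤ 2 / (n + 1) - 2 / (((n + 1 : ℕ) : ℝ) + 1) := by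
        have h2 : 2 / ((n : ℝ) + 1) - 2 / (((n + 1 : ℕ) : ℝ) + 1) =
            2 / ((1 + n) * (2 + n)) := by
          push_cast
          have h3 : (n : ℝ) + 1 ≠ 0 := by positivity
          have h4 : (n : ℝ) + 1 + 1 ≠ 0 := by positivity
          field_simp
          ring
        rw [h2, div_le_div_iff₀ (by positivity) (by positivity)]
        nlinarith
      linarith
  have : 0 ≤ 2 / ((n : ℝ) + 1) := by positivity
  linarith

end count

variable {q : ℕ}

open Classical in
/-- one piece -/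
theorem cphi_piece {L : ℕ} (hq : 1 ≤ q) (A Z : Finset (Site L)) (Ω : Conf (Site L) q → ℂ)
    (hΩ : nsq Ω = 1) (ε : ℝ) (hε : 0 < ε) (hε1 : ε * (q : ℝ) ^ A.card ≤ 1) (T : Op (Site L) q)
    (hT : T.IsHermitian) (hZ : ActsOn Z T) {c : ℝ} (hc : ‖T‖ ≤ c) {z : ℝ} (hz : (Z.card : ℝ) ≤ z) :
    cphi (GG A Ω ε) Ω T ≤
      (if Z ⊆ A ∨ Disjoint Z A then 0 else 1) * (100 * c * (1 + z * Real.log q)) := by
  have hlog : 0 ≤ Real.log q := Real.log_nonneg (by exact_mod_cast hq)
  have hc0 : 0 ≤ c := (norm_nonneg _).trans hc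
  split_ifs with h
  · rw [zero_mul]
    apply le_of_eq
    unfold cphi
    rcases h with h | h
    · have h1 := sie_in hq A Z Ω ε T hZ h
      rw [Matrix.smul_mulVec, dotProduct_smul, h1]
      simp
    · rw [sie_out hq A Z Ω ε T hZ h]
      simp
  · rw [one_mul]
    have h1 := sie hq A Z Ω hΩ ε hε hε1 T hT hZ
    refine (le_abs_self _).trans (h1.trans ?_)
    gcongr

open Classical in
theorem comm_bound_aux {R : ℕ} {J Δ : ℝ} {w : ℝ → ℝ} (hq : 1 ≤ q) (hJ : 0 ≤ J)
    (hw : IsFilter Δ w) : ∃ C : ℝ, 0 ≤ C ∧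
    ∀ (L : ℕ) (g v : Finset (Site L) → Op (Site L) q) (δ : ℝ), 0 ≤ δ → Terms L q R J g →
    Terms L q R δ v → ∀ (Ω : Conf (Site L) q → ℂ), nsq Ω = 1 → ∀ (A : Finset (Site L)) (ε : ℝ),
    0 < ε → ε * (q : ℝ) ^ A.card ≤ 1 →
    (star Ω ⬝ᵥ ((Complex.I • (GG A Ω ε * DD w (∑ X, g X) (∑ X, v X) -
      DD w (∑ X, g X) (∑ X, v X) * GG A Ω ε)) *ᵥ Ω)).re ≤ C * δ * bdry A := by
  obtain ⟨C4, hC40, hC4⟩ := DD_step (R := R) hJ hw
  set M1 : ℝ := ∫ t, |t| * |w t| with hM1
  have hM10 : 0 ≤ M1 := MeasureTheory.integral_nonneg fun t => by positivity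
  have hlog : 0 ≤ Real.log q := Real.log_nonneg (by exact_mod_cast hq)
  set ℓ := Real.log q with hℓ
  set c0 : ℝ := 100 * M1 * (1 + (2 * R + 1) ^ 2 * ℓ) with hc0
  have hc00 : 0 ≤ c0 := by rw [hc0]; positivity
  set c1 : ℝ := 100 * C4 * (9 * (1 + 9 * ℓ)) with hc1
  have hc10 : 0 ≤ c1 := by rw [hc1]; positivity
  refine ⟨NR R * (c0 * (2 * R + 1) ^ 2 + 2 * c1), by positivity, ?_⟩
  intro L g v δ hδ hg hv Ω hΩ A ε hε hε1
  change cphi (GG A Ω ε) Ω (DD w (∑ X, g X) (∑ X, v X)) ≤ _
  set G := GG A Ω ε with hG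
  have hH : (∑ X, g X).IsHermitian := hg.herm_sum _
  rw [DD_sum hw hH, cphi_sum]
  -- bound for one term, localised at `x`
  set f : Site L → ℝ := fun x => δ * (c0 * (if Crs A x R then 1 else 0) +
    ∑ k ∈ range (2 * L), (if Crs A x (R + k + 1) then 1 else 0) *
      (100 * C4 * (1 + (2 * (R + k + 1 : ℝ) + 1) ^ 2 * ℓ) / (1 + (R + k : ℝ)) ^ 8)) with hf
  have hf0 : ∀ x, 0 ≤ f x := by
    intro x
    rw [hf]
    refine mul_nonneg hδ (add_nonneg (mul_nonneg hc00 (by split_ifs <;> norm_num)) ?_)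
    refine Finset.sum_nonneg fun k _ => mul_nonneg (by split_ifs <;> norm_num) (by positivity)
  have hone : ∀ X x, x ∈ X → (∀ y ∈ X, ∀ z ∈ X, dist1 y z ≤ R) →
      cphi G Ω (DD w (∑ X, g X) (v X)) ≤ f x := by
    intro X x hx hX
    have hn : ‖v X‖ ≤ δ := (opNormLe_iff hδ).mp (hv.norm X)
    have h1 : DD w (∑ X, g X) (v X) = DD w (Hr g x R) (v X) +
        ∑ k ∈ range (2 * L), (DD w (Hr g x (R + (k + 1))) (v X) - DD w (Hr g x (R + k)) (v X)) := by
      rw [Finset.sum_range_sub (fun k => DD w (Hr g x (R + k)) (v X)), ← Hr_univ g x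
        (r := R + 2 * L) (by omega)]
      simp
    rw [h1, cphi_add, cphi_sum, hf]
    simp only
    rw [mul_add, Finset.mul_sum]
    refine add_le_add ?_ (Finset.sum_le_sum fun k _ => ?_)
    · have h2 := cphi_piece hq A (ball x R) Ω hΩ ε hε hε1 (DD w (Hr g x R) (v X))
        (DD_herm hw (hg.herm_Hr x R) (hv.herm X))
        (DD_actsOn (hg.act_Hr x R) (act_mono (subset_ball hx hX le_rfl) (hv.loc X)) w)
        (c := M1 * δ) ((DD_norm hw (hg.herm_Hr x R) _).trans
          (mul_le_mul_of_nonneg_left hn hM10)) (z := (2 * R + 1) ^ 2)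
        (by exact_mod_cast card_ball x R)
      refine h2.trans (le_of_eq ?_)
      unfold Crs
      rw [hc0]
      split_ifs <;> first | ring | (exfalso; tauto)
    · have hact0 : ActsOn (ball x (R + k + 1)) (v X) :=
        act_mono (subset_ball hx hX (by omega)) (hv.loc X)
      have h2 := cphi_piece hq A (ball x (R + k + 1)) Ω hΩ ε hε hε1
        (DD w (Hr g x (R + (k + 1))) (v X) - DD w (Hr g x (R + k)) (v X))
        ((DD_herm hw (hg.herm_Hr x _) (hv.herm X)).sub (DD_herm hw (hg.herm_Hr x _) (hv.herm X)))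
        (act_sub (DD_actsOn (hg.act_Hr x (R + k + 1)) hact0 w)
          (DD_actsOn (act_mono (ball_mono x (by omega)) (hg.act_Hr x (R + k))) hact0 w))
        (c := C4 * δ / (1 + (R + k : ℝ)) ^ 8) ?_ (z := (2 * (R + k + 1 : ℝ) + 1) ^ 2)
        (by exact_mod_cast card_ball x (R + k + 1))
      · refine h2.trans (le_of_eq ?_)
        unfold Crs
        split_ifs <;> first | ring | (exfalso; tauto)
      · have h3 := hC4 L q g hg x (R + k) (by omega) X hx hX (v X) (hv.loc X)
        push_cast at h3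
        refine h3.trans ?_
        gcongr
  -- sum over the terms
  have hsum : ∑ X, cphi G Ω (DD w (∑ X, g X) (v X)) ≤ NR R * ∑ x, f x := by
    have hch : ∀ X : Finset (Site L), ∃ o : Option (Site L),
        (v X = 0 ∧ o = none) ∨ (∃ x, o = some x ∧ x ∈ X ∧ ∀ y ∈ X, ∀ z ∈ X, dist1 y z ≤ R) := by
      intro X
      by_cases h : v X = 0
      · exact ⟨none, Or.inl ⟨h, rfl⟩⟩
      · obtain ⟨⟨x, hx⟩, h2⟩ := hv.range X h
        exact ⟨some x, Or.inr ⟨x, rfl, hx, h2⟩⟩
    choose o ho using hch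
    have h1 : ∀ X, cphi G Ω (DD w (∑ X, g X) (v X)) ≤ ∑ x, if o X = some x then f x else 0 := by
      intro X
      rcases ho X with ⟨h, h2⟩ | ⟨x, h2, hx, hX⟩
      · rw [h, DD_zero, cphi_zero]
        exact Finset.sum_nonneg fun x _ => by split_ifs; exacts [hf0 x, le_rfl]
      · refine (hone X x hx hX).trans ?_
        rw [h2]
        have : f x = if some x = some x then f x else 0 := by simp
        rw [this]
        exact Finset.single_le_sum (f := fun y => if some x = some y then f y else 0)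
          (fun y _ => by split_ifs; exacts [hf0 y, le_rfl]) (Finset.mem_univ x)
    refine (Finset.sum_le_sum fun X _ => h1 X).trans ?_
    rw [Finset.sum_comm, Finset.mul_sum]
    refine Finset.sum_le_sum fun x _ => ?_
    rw [← Finset.sum_filter, Finset.sum_const, nsmul_eq_mul]
    refine mul_le_mul_of_nonneg_right ?_ (hf0 x)
    have h2 : (Finset.univ.filter (fun X => o X = some x)) ⊆ (ball x R).powerset := by
      intro X hX
      have hX' := (Finset.mem_filter.mp hX).2
      rcases ho X with ⟨h, h2⟩ | ⟨y, h2, hy, hXX⟩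
      · rw [h2] at hX'; cases hX'
      · rw [h2] at hX'
        cases hX'
        rw [Finset.mem_powerset]
        exact subset_ball hy hXX le_rfl
    exact_mod_cast (Finset.card_le_card h2).trans (card_local x R)
  refine hsum.trans ?_
  have hcnt : ∀ s : ℕ, ∑ x : Site L, (if Crs A x s then (1 : ℝ) else 0) ≤
      (2 * s + 1) ^ 2 * bdry A := by
    intro s
    rw [← Finset.sum_filter, Finset.sum_const, nsmul_eq_mul, mul_one]
    exact_mod_cast card_crs A s
  have hb0 : (0 : ℝ) ≤ bdry A := by positivity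
  have hfs : ∑ x, f x ≤ δ * ((c0 * (2 * R + 1) ^ 2 + 2 * c1) * bdry A) := by
    rw [hf]
    rw [← Finset.mul_sum]
    refine mul_le_mul_of_nonneg_left ?_ hδ
    rw [Finset.sum_add_distrib, ← Finset.mul_sum, add_mul]
    refine add_le_add ?_ ?_
    · calc c0 * ∑ x : Site L, (if Crs A x R then (1 : ℝ) else 0) ≤
          c0 * ((2 * R + 1) ^ 2 * bdry A) := mul_le_mul_of_nonneg_left (hcnt R) hc00
        _ = _ := by ring
    · rw [Finset.sum_comm]
      calc ∑ k ∈ range (2 * L), ∑ x : Site L, (if Crs A x (R + k + 1) then (1 : ℝ) else 0) *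
            (100 * C4 * (1 + (2 * (R + k + 1 : ℝ) + 1) ^ 2 * ℓ) / (1 + (R + k : ℝ)) ^ 8)
          ≤ ∑ k ∈ range (2 * L), c1 * bdry A * (1 / (1 + (k : ℝ)) ^ 2) := by
            refine Finset.sum_le_sum fun k _ => ?_
            rw [← Finset.sum_mul]
            have h1 := hcnt (R + k + 1)
            push_cast at h1
            set s : ℝ := 1 + (R + k : ℝ) with hs
            have hs1 : 1 ≤ s := by rw [hs]; have : (0 : ℝ) ≤ (R : ℝ) + k := by positivity
                                   linarith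
            have hsk : 1 + (k : ℝ) ≤ s := by rw [hs]; have : (0 : ℝ) ≤ R := by positivity
                                             linarith
            have hs2 : (2 * (R + k + 1 : ℝ) + 1) ≤ 3 * s := by rw [hs]; rw [hs] at hs1; linarith
            have hs2' : (2 * (R + k + 1 : ℝ) + 1) ^ 2 ≤ 9 * s ^ 2 := by
              calc _ ≤ (3 * s) ^ 2 := pow_le_pow_left₀ (by positivity) hs2 2
                _ = _ := by ring
            have hs0 : 0 < s := by linarith
            calc (∑ x : Site L, (if Crs A x (R + k + 1) then (1 : ℝ) else 0)) *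
                  (100 * C4 * (1 + (2 * (R + k + 1 : ℝ) + 1) ^ 2 * ℓ) / s ^ 8)
                ≤ (9 * s ^ 2 * bdry A) * (100 * C4 * (s ^ 2 + 9 * s ^ 2 * ℓ) / s ^ 8) := by
                  refine mul_le_mul (h1.trans ?_) ?_ (by positivity) (by positivity)
                  · exact mul_le_mul_of_nonneg_right hs2' hb0
                  · have : (1 : ℝ) ≤ s ^ 2 := one_le_pow₀ hs1
                    gcongr
              _ = c1 * bdry A * (1 / s ^ 4) := by
                  rw [hc1]
                  field_simp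
              _ ≤ c1 * bdry A * (1 / (1 + (k : ℝ)) ^ 2) := by
                  refine mul_le_mul_of_nonneg_left ?_ (by positivity)
                  refine one_div_le_one_div_of_le (by positivity) ?_
                  calc (1 + (k : ℝ)) ^ 2 ≤ s ^ 2 := pow_le_pow_left₀ (by positivity) hsk 2
                    _ ≤ s ^ 4 := pow_le_pow_right₀ hs1 (by norm_num)
        _ ≤ 2 * c1 * bdry A := by
            rw [← Finset.mul_sum]
            have := sum_inv_sq (2 * L)
            calc c1 * bdry A * ∑ k ∈ range (2 * L), 1 / (1 + (k : ℝ)) ^ 2 ≤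
                c1 * bdry A * 2 := mul_le_mul_of_nonneg_left this (by positivity)
              _ = _ := by ring
  calc (NR R : ℝ) * ∑ x, f x ≤ NR R * (δ * ((c0 * (2 * R + 1) ^ 2 + 2 * c1) * bdry A)) :=
        mul_le_mul_of_nonneg_left hfs (by positivity)
    _ = _ := by ring

/-- P7b -/
theorem comm_bound {R : ℕ} {J Δ : ℝ} {w : ℝ → ℝ} (hq : 1 ≤ q) (hJ : 0 ≤ J)
    (hw : IsFilter Δ w) : ∃ C : ℝ, 0 ≤ C ∧
    ∀ (L : ℕ) (g v : Finset (Site L) → Op (Site L) q) (δ : ℝ), 0 ≤ δ → Terms L q R J g →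
    Terms L q R δ v → ∀ (Ω : Conf (Site L) q → ℂ), nsq Ω = 1 → ∀ (A : Finset (Site L)) (ε : ℝ),
    0 < ε → ε * (q : ℝ) ^ A.card ≤ 1 →
    (star Ω ⬝ᵥ ((Complex.I • (GG A Ω ε * DD w (∑ X, g X) (∑ X, v X) -
      DD w (∑ X, g X) (∑ X, v X) * GG A Ω ε)) *ᵥ Ω)).re ≤ C * δ * bdry A :=
  comm_bound_aux hq hJ hw

end Vale.Agent.P356.PH
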