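import Vale.Agent.P356.Defs
import Mathlib.Analysis.CStarAlgebra.Matrix
import Mathlib.Analysis.SpecialFunctions.Exponential
import Mathlib.Analysis.Calculus.MeanValue

/-!
Heisenberg evolution in a C*-algebra.
-/

set_option linter.all false

namespace Vale.Agent.P356.PH

open Finset
open scoped BigOperators

section evo

variable {𝔸 : Type*} [CStarAlgebra 𝔸]

/-- `e^{itH}` -/
noncomputable def phU (H : 𝔸) (t : ℝ) : 𝔸 := NormedSpace.exp (t • (Complex.I • H))

/-- Heisenberg evolution `e^{itH} A e^{-itH}` -/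
noncomputable def phTau (H : 𝔸) (t : ℝ) (A : 𝔸) : 𝔸 := phU H t * A * phU H (-t)

theorem phU_zero (H : 𝔸) : phU H 0 = 1 := by
  rw [phU, zero_smul, NormedSpace.exp_zero]

theorem phU_add (H : 𝔸) (s t : ℝ) : phU H (s + t) = phU H s * phU H t := by
  letI : NormedAlgebra ℚ 𝔸 := NormedAlgebra.restrictScalars ℚ ℝ 𝔸
  rw [phU, phU, phU, add_smul, NormedSpace.exp_add_of_commute]
  exact ((Commute.refl _).smul_left _).smul_right _

theorem phU_mul_neg (H : 𝔸) (t : ℝ) : phU H t * phU H (-t) = 1 := by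
  rw [← phU_add, add_neg_cancel, phU_zero]

theorem phU_neg_mul (H : 𝔸) (t : ℝ) : phU H (-t) * phU H t = 1 := by
  rw [← phU_add, neg_add_cancel, phU_zero]

theorem phU_star {H : 𝔸} (hH : IsSelfAdjoint H) (t : ℝ) : star (phU H t) = phU H (-t) := by
  rw [phU, phU, NormedSpace.star_exp]
  congr 1
  rw [star_smul, star_smul, hH.star_eq]
  simp

theorem phU_mem {H : 𝔸} (hH : IsSelfAdjoint H) (t : ℝ) : phU H t ∈ unitary 𝔸 := by
  rw [Unitary.mem_iff, phU_star hH]
  exact ⟨phU_neg_mul H t, phU_mul_neg H t⟩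

theorem phU_norm_mul {H : 𝔸} (hH : IsSelfAdjoint H) (t : ℝ) (A : 𝔸) : ‖phU H t * A‖ = ‖A‖ :=
  CStarRing.norm_mem_unitary_mul A (phU_mem hH t)

theorem phU_mul_norm {H : 𝔸} (hH : IsSelfAdjoint H) (t : ℝ) (A : 𝔸) : ‖A * phU H t‖ = ‖A‖ :=
  CStarRing.norm_mul_mem_unitary A (phU_mem hH t)

theorem phU_commute_self (H : 𝔸) (t : ℝ) : Commute H (phU H t) := by
  rw [phU]
  exact ((Commute.refl H).smul_right _ |>.smul_right _).exp_right

theorem phU_commute {H A : 𝔸} (h : Commute A H) (t : ℝ) : Commute A (phU H t) := by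
  rw [phU]
  exact (h.smul_right _ |>.smul_right _).exp_right

theorem phU_hasDerivAt (H : 𝔸) (t : ℝ) :
    HasDerivAt (fun s => phU H s) (Complex.I • (phU H t * H)) t := by
  have h := hasDerivAt_exp_smul_const (𝕂 := ℝ) (Complex.I • H) t
  rw [mul_smul_comm] at h
  exact h

theorem phU_hasDerivAt' (H : 𝔸) (t : ℝ) :
    HasDerivAt (fun s => phU H s) (Complex.I • (H * phU H t)) t := by
  rw [(phU_commute_self H t).eq]
  exact phU_hasDerivAt H t

theorem phU_neg_hasDerivAt (H : 𝔸) (t : ℝ) :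
    HasDerivAt (fun s => phU H (-s)) (-(Complex.I • (phU H (-t) * H))) t := by
  have h := (phU_hasDerivAt H (-t)).scomp t (hasDerivAt_neg t)
  exact h.congr_deriv (by rw [neg_smul, one_smul])

theorem phU_neg_hasDerivAt' (H : 𝔸) (t : ℝ) :
    HasDerivAt (fun s => phU H (-s)) (-(Complex.I • (H * phU H (-t)))) t := by
  rw [(phU_commute_self H (-t)).eq]
  exact phU_neg_hasDerivAt H t

theorem phU_continuous (H : 𝔸) : Continuous (fun s => phU H s) :=
  continuous_iff_continuousAt.2 fun t => (phU_hasDerivAt H t).continuousAt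

theorem phTau_zero_time (H A : 𝔸) : phTau H 0 A = A := by
  rw [phTau, neg_zero, phU_zero, one_mul, mul_one]

theorem phTau_add (H : 𝔸) (t : ℝ) (A B : 𝔸) : phTau H t (A + B) = phTau H t A + phTau H t B := by
  rw [phTau, phTau, phTau, mul_add, add_mul]

theorem phTau_sub (H : 𝔸) (t : ℝ) (A B : 𝔸) : phTau H t (A - B) = phTau H t A - phTau H t B := by
  rw [phTau, phTau, phTau, mul_sub, sub_mul]

theorem phTau_zero (H : 𝔸) (t : ℝ) : phTau H t 0 = 0 := by
  rw [phTau, mul_zero, zero_mul]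

theorem phTau_one (H : 𝔸) (t : ℝ) : phTau H t 1 = 1 := by
  rw [phTau, mul_one, phU_mul_neg]

theorem phTau_smul (H : 𝔸) (t : ℝ) (c : ℂ) (A : 𝔸) : phTau H t (c • A) = c • phTau H t A := by
  rw [phTau, phTau, mul_smul_comm, smul_mul_assoc]

theorem phTau_sum {ι : Type*} (H : 𝔸) (t : ℝ) (s : Finset ι) (A : ι → 𝔸) :
    phTau H t (∑ i ∈ s, A i) = ∑ i ∈ s, phTau H t (A i) := by
  rw [phTau, Finset.mul_sum, Finset.sum_mul]
  rfl

theorem phTau_mul (H : 𝔸) (t : ℝ) (A B : 𝔸) : phTau H t (A * B) = phTau H t A * phTau H t B := by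
  rw [phTau, phTau, phTau]
  calc phU H t * (A * B) * phU H (-t) = phU H t * A * 1 * B * phU H (-t) := by
        simp only [mul_assoc, mul_one, one_mul]
    _ = _ := by rw [← phU_neg_mul H t]; simp only [mul_assoc]

theorem phTau_time_add (H : 𝔸) (s t : ℝ) (A : 𝔸) : phTau H (s + t) A = phTau H s (phTau H t A) := by
  rw [phTau, phTau, phTau, phU_add, neg_add, add_comm (-s) (-t), phU_add]
  simp only [mul_assoc]

theorem phTau_star {H : 𝔸} (hH : IsSelfAdjoint H) (t : ℝ) (A : 𝔸) :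
    star (phTau H t A) = phTau H t (star A) := by
  rw [phTau, phTau, star_mul, star_mul, phU_star hH, phU_star hH, neg_neg, mul_assoc]

theorem phTau_isSelfAdjoint {H : 𝔸} (hH : IsSelfAdjoint H) (t : ℝ) {A : 𝔸} (hA : IsSelfAdjoint A) :
    IsSelfAdjoint (phTau H t A) := by
  rw [isSelfAdjoint_iff, phTau_star hH, hA.star_eq]

theorem phTau_norm {H : 𝔸} (hH : IsSelfAdjoint H) (t : ℝ) (A : 𝔸) : ‖phTau H t A‖ = ‖A‖ := by
  rw [phTau, phU_mul_norm hH, phU_norm_mul hH]

theorem phTau_of_commute {H A : 𝔸} (h : Commute A H) (t : ℝ) : phTau H t A = A := by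
  rw [phTau, ← (phU_commute h t).eq, mul_assoc, phU_mul_neg, mul_one]

theorem phTau_self (H : 𝔸) (t : ℝ) : phTau H t H = H := phTau_of_commute (Commute.refl H) t

theorem phTau_commute_of {H A B : 𝔸} (hA : Commute B A) (h : Commute B H) (t : ℝ) :
    Commute B (phTau H t A) := by
  rw [phTau]
  exact ((phU_commute h t).mul_right hA).mul_right (phU_commute h (-t))

theorem phTau_hasDerivAt (H : 𝔸) (A : 𝔸) (t : ℝ) :
    HasDerivAt (fun s => phTau H s A) (phTau H t (Complex.I • (H * A - A * H))) t := by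
  have h1 := ((phU_hasDerivAt H t).mul_const A).mul (phU_neg_hasDerivAt' H t)
  refine h1.congr_deriv ?_
  rw [phTau_smul, phTau]
  simp only [mul_sub, sub_mul, smul_sub, smul_mul_assoc, mul_neg, mul_smul_comm, mul_assoc]
  rw [sub_eq_add_neg]

theorem phTau_hasDerivAt' (H : 𝔸) (A : 𝔸) (t : ℝ) :
    HasDerivAt (fun s => phTau H s A)
      (Complex.I • (H * phTau H t A - phTau H t A * H)) t := by
  have h := phTau_hasDerivAt H A t
  rwa [phTau_smul, phTau_sub, phTau_mul, phTau_mul, phTau_self] at h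

theorem phTau_continuous (H : 𝔸) (A : 𝔸) : Continuous (fun s => phTau H s A) :=
  continuous_iff_continuousAt.2 fun t => (phTau_hasDerivAt H A t).continuousAt

/-- mean value inequality in the form which is used here -/
theorem ph_mvt {f f' : ℝ → 𝔸} {φ φ' : ℝ → ℝ} {T : ℝ} (hT : 0 ≤ T)
    (hf : ∀ s, HasDerivAt f (f' s) s) (hφ : ∀ s, HasDerivAt φ (φ' s) s)
    (hb : ∀ s, 0 ≤ s → s ≤ T → ‖f' s‖ ≤ φ' s) (h0 : f 0 = 0) (hφ0 : φ 0 = 0) :
    ‖f T‖ ≤ φ T := by
  refine image_norm_le_of_norm_deriv_right_le_deriv_boundary (f := f) (f' := f') (a := 0) (b := T)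
    (fun s _ => (hf s).continuousAt.continuousWithinAt) (fun s _ => (hf s).hasDerivWithinAt)
    (B := φ) (B' := φ') (by rw [h0, hφ0, norm_zero]) hφ (fun s hs => hb s hs.1 hs.2.le)
    ⟨hT, le_rfl⟩

theorem ph_comm_norm_le (A B : 𝔸) : ‖A * B - B * A‖ ≤ 2 * ‖A‖ * ‖B‖ := by
  calc ‖A * B - B * A‖ ≤ ‖A * B‖ + ‖B * A‖ := norm_sub_le _ _
    _ ≤ ‖A‖ * ‖B‖ + ‖B‖ * ‖A‖ := add_le_add (norm_mul_le _ _) (norm_mul_le _ _)
    _ = 2 * ‖A‖ * ‖B‖ := by ring

/-- one step of the Lieb-Robinson recursion: `H = K + V`, `A` commutes with `K` and with `B` -/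
theorem ph_step {K V A B : 𝔸} (hK : IsSelfAdjoint K) (hV : IsSelfAdjoint V)
    (hAK : Commute A K) (hAB : Commute A B) {φ φ' : ℝ → ℝ} {T : ℝ} (hT : 0 ≤ T)
    (hφ : ∀ s, HasDerivAt φ (φ' s) s) (hφ0 : φ 0 = 0)
    (hb : ∀ s, 0 ≤ s → s ≤ T → ‖phTau (K + V) s V * B - B * phTau (K + V) s V‖ ≤ φ' s) :
    ‖phTau (K + V) T A * B - B * phTau (K + V) T A‖ ≤ 2 * ‖A‖ * φ T := by
  set H := K + V with hHdef
  have hH : IsSelfAdjoint H := hK.add hV
  -- the unitary `W(t) = e^{itH} e^{-itK}` and its inverse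
  let W : ℝ → 𝔸 := fun s => phU H s * phU K (-s)
  let W' : ℝ → 𝔸 := fun s => phU K s * phU H (-s)
  have hWW : ∀ s, W s * W' s = 1 := fun s => by
    simp only [W, W']
    rw [mul_assoc, ← mul_assoc (phU K (-s)), phU_neg_mul, one_mul, phU_mul_neg]
  have hWW' : ∀ s, W' s * W s = 1 := fun s => by
    simp only [W, W']
    rw [mul_assoc, ← mul_assoc (phU H (-s)), phU_neg_mul, one_mul, phU_mul_neg]
  have hWmem : ∀ s, W s ∈ unitary 𝔸 := fun s => mul_mem (phU_mem hH s) (phU_mem hK (-s))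
  have hWmem' : ∀ s, W' s ∈ unitary 𝔸 := fun s => mul_mem (phU_mem hK s) (phU_mem hH (-s))
  have hd : ∀ s, HasDerivAt W (Complex.I • (phTau H s V * W s)) s := fun s => by
    have h1 := (phU_hasDerivAt H s).mul (phU_neg_hasDerivAt' K s)
    refine h1.congr_deriv ?_
    have h2 : phTau H s V * W s = phU H s * V * phU K (-s) := by
      simp only [W]
      rw [phTau]
      calc phU H s * V * phU H (-s) * (phU H s * phU K (-s)) =
          phU H s * V * (phU H (-s) * phU H s) * phU K (-s) := by simp only [mul_assoc]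
        _ = _ := by rw [phU_neg_mul, mul_one]
    rw [h2, hHdef]
    simp only [mul_add, add_mul, smul_add, smul_mul_assoc, mul_neg, mul_smul_comm, mul_assoc]
    abel
  have hd' : ∀ s, HasDerivAt W' (-(Complex.I • (W' s * phTau H s V))) s := fun s => by
    have h1 := (phU_hasDerivAt K s).mul (phU_neg_hasDerivAt' H s)
    refine h1.congr_deriv ?_
    have h2 : W' s * phTau H s V = phU K s * V * phU H (-s) := by
      simp only [W']
      rw [phTau]
      calc phU K s * phU H (-s) * (phU H s * V * phU H (-s)) =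
          phU K s * (phU H (-s) * phU H s) * V * phU H (-s) := by simp only [mul_assoc]
        _ = _ := by rw [phU_neg_mul, mul_one]
    rw [h2, hHdef]
    simp only [mul_add, add_mul, smul_add, smul_mul_assoc, mul_neg, mul_smul_comm, mul_assoc,
      neg_add]
    abel
  -- `f(t) = W' B W - B`
  let f : ℝ → 𝔸 := fun s => W' s * B * W s - B
  let f' : ℝ → 𝔸 := fun s => -(Complex.I • (W' s * (phTau H s V * B - B * phTau H s V) * W s))
  have hf : ∀ s, HasDerivAt f (f' s) s := fun s => by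
    have h1 := ((((hd' s).mul_const B).mul (hd s)).sub_const B)
    refine h1.congr_deriv ?_
    simp only [f']
    simp only [mul_sub, sub_mul, smul_sub, smul_mul_assoc, neg_mul, mul_neg, mul_smul_comm,
      mul_assoc]
    abel
  have hf0 : f 0 = 0 := by
    simp only [f, W, W']
    rw [neg_zero, phU_zero, phU_zero, one_mul, one_mul, mul_one, sub_self]
  have hfb : ∀ s, 0 ≤ s → s ≤ T → ‖f' s‖ ≤ φ' s := fun s h0 hs => by
    simp only [f']
    rw [norm_neg, norm_smul, Complex.norm_I, one_mul,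
      CStarRing.norm_mul_mem_unitary _ (hWmem s), CStarRing.norm_mem_unitary_mul _ (hWmem' s)]
    exact hb s h0 hs
  have hmv := ph_mvt hT hf hφ hfb hf0 hφ0
  -- `tau_T(A) = W A W'`
  have hτ : phTau H T A = W T * A * W' T := by
    simp only [W, W']
    have hc := phU_commute hAK (-T)
    calc phTau H T A = phU H T * A * phU H (-T) := rfl
      _ = phU H T * A * (phU K (-T) * phU K T) * phU H (-T) := by rw [phU_neg_mul, mul_one]
      _ = phU H T * (A * phU K (-T)) * phU K T * phU H (-T) := by simp only [mul_assoc]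
      _ = _ := by rw [hc.eq]; simp only [mul_assoc]
  have hcomm : phTau H T A * B - B * phTau H T A =
      W T * (A * f T - f T * A) * W' T := by
    have e1 : W T * (A * (W' T * B * W T)) * W' T = W T * A * W' T * B := by
      calc W T * (A * (W' T * B * W T)) * W' T = W T * A * W' T * B * (W T * W' T) := by
            simp only [mul_assoc]
        _ = _ := by rw [hWW, mul_one]
    have e2 : W T * (W' T * B * W T * A) * W' T = B * (W T * A * W' T) := by
      calc W T * (W' T * B * W T * A) * W' T = (W T * W' T) * B * (W T * A * W' T) := by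
            simp only [mul_assoc]
        _ = _ := by rw [hWW, one_mul]
    have e3 : A * f T - f T * A = A * (W' T * B * W T) - (W' T * B * W T) * A := by
      simp only [f, mul_sub, sub_mul]
      rw [hAB.eq]
      abel
    rw [e3, hτ, mul_sub, sub_mul, e1, e2]
  rw [hcomm, CStarRing.norm_mul_mem_unitary _ (hWmem' T), CStarRing.norm_mem_unitary_mul _ (hWmem T)]
  calc ‖A * f T - f T * A‖ ≤ 2 * ‖A‖ * ‖f T‖ := ph_comm_norm_le _ _
    _ ≤ 2 * ‖A‖ * φ T := mul_le_mul_of_nonneg_left hmv (by positivity)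

end evo

end Vale.Agent.P356.PH
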