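import Vale.Agent.P356.PH.Defs
import Vale.Agent.P356.SV.Ent

/-!
Summation of the steps of a path (elementary).
-/

set_option linter.all false

namespace Vale.Agent.P356.PH

open Matrix Finset Vale.Agent.P356 Vale.Agent.P356.SV Vale.Agent.P356.Path
open scoped BigOperators ComplexOrder Kronecker Matrix.Norms.L2Operator

/-- `log (2 n ^ 2) ≤ 8 √n` -/
theorem it_log (n : ℕ) (hn : 1 ≤ n) : Real.log (2 * (n : ℝ) ^ 2) ≤ 8 * Real.sqrt n := by
  have hn' : (1 : ℝ) ≤ n := by exact_mod_cast hn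
  have hs : 1 ≤ Real.sqrt n := by
    rw [show (1 : ℝ) = Real.sqrt 1 by simp]
    exact Real.sqrt_le_sqrt hn'
  have h0 : (0 : ℝ) < n := by linarith
  have h1 : Real.log (2 * (n : ℝ) ^ 2) = Real.log 2 + 4 * Real.log (Real.sqrt n) := by
    rw [Real.log_mul (by norm_num) (by positivity), Real.log_pow, Real.log_sqrt h0.le]
    push_cast
    ring
  have h2 : Real.log (Real.sqrt n) ≤ Real.sqrt n - 1 := Real.log_le_sub_one_of_pos (by linarith)
  have h3 : Real.log 2 ≤ 1 := by
    have := Real.log_two_lt_d9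
    linarith
  rw [h1]
  linarith

theorem it_main (S : ℝ → ℝ) (a b c : ℝ) (hb : 0 ≤ b) (hc : 0 ≤ c) (n0 : ℕ)
    (hstep : ∀ n : ℕ, n0 ≤ n → 1 ≤ n → ∀ k : ℕ, k < n →
      S (((k : ℝ) + 1) / n) ≤ S ((k : ℝ) / n) + a / n + b / (n : ℝ) ^ 2 +
        c * Real.sqrt n / (n : ℝ) ^ 2) : S 1 ≤ S 0 + a := by
  have key : ∀ n : ℕ, n0 ≤ n → 1 ≤ n → ∀ k : ℕ, k ≤ n →
      S ((k : ℝ) / n) ≤ S 0 + k * (a / n + b / (n : ℝ) ^ 2 + c * Real.sqrt n / (n : ℝ) ^ 2) := by
    intro n hn hn1 k
    induction k with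
    | zero => intro _; simp
    | succ k ih =>
      intro hk
      have h1 := ih (by omega)
      have h2 := hstep n hn hn1 k (by omega)
      push_cast
      nlinarith
  have h1 : ∀ n : ℕ, n0 ≤ n → 1 ≤ n → S 1 ≤ S 0 + a + (b + c) / Real.sqrt n := by
    intro n hn hn1
    have h := key n hn hn1 n le_rfl
    have hn' : (1 : ℝ) ≤ n := by exact_mod_cast hn1
    have h0 : (0 : ℝ) < n := by linarith
    have hs : 1 ≤ Real.sqrt n := by
      rw [show (1 : ℝ) = Real.sqrt 1 by simp]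
      exact Real.sqrt_le_sqrt hn'
    have hs0 : 0 < Real.sqrt n := by linarith
    have hsn : Real.sqrt n * Real.sqrt n = n := Real.mul_self_sqrt h0.le
    rw [div_self h0.ne'] at h
    refine h.trans ?_
    have e : (n : ℝ) * (a / n + b / (n : ℝ) ^ 2 + c * Real.sqrt n / (n : ℝ) ^ 2) =
        a + (b / n + c / Real.sqrt n) := by
      field_simp
      nlinarith
    rw [e, ← add_assoc, add_div, ← add_assoc]
    have h3 : b / n ≤ b / Real.sqrt n := by
      refine div_le_div_of_nonneg_left hb hs0 ?_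
      nlinarith
    linarith
  refine le_of_forall_pos_le_add fun η hη => ?_
  obtain ⟨n, hn⟩ := exists_nat_gt (((b + c) / η) ^ 2)
  have hm := h1 (max n0 (max 1 n)) (le_max_left _ _) ((le_max_left _ _).trans (le_max_right _ _))
  refine hm.trans ?_
  have hbig : (n : ℝ) ≤ (max n0 (max 1 n) : ℕ) := by
    exact_mod_cast (le_max_right _ _).trans (le_max_right _ _)
  have hs : (b + c) / η < Real.sqrt (max n0 (max 1 n) : ℕ) := by
    refine Real.lt_sqrt_of_sq_lt ?_
    linarith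
  have h2 : (b + c) / Real.sqrt (max n0 (max 1 n) : ℕ) ≤ η := by
    have hpos : 0 < Real.sqrt (max n0 (max 1 n) : ℕ) :=
      lt_of_le_of_lt (by positivity) hs
    rw [div_le_iff₀ hpos]
    rw [div_lt_iff₀ hη] at hs
    nlinarith
  linarith

end Vale.Agent.P356.PH
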