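import Vale.Agent.P356.PH.Evo749

/-!
Lieb-Robinson bound in a C*-algebra, for finitely many terms with a graph structure.
-/

set_option linter.all false

namespace Vale.Agent.P356.PH

open Finset
open scoped BigOperators

section lr

variable {𝔸 : Type*} [CStarAlgebra 𝔸]

theorem phU_neg_ham (H : 𝔸) (t : ℝ) : phU (-H) t = phU H (-t) := by
  rw [phU, phU, smul_neg, smul_neg, neg_smul]

theorem phTau_neg_ham (H : 𝔸) (t : ℝ) (A : 𝔸) : phTau (-H) t A = phTau H (-t) A := by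
  rw [phTau, phTau, phU_neg_ham, phU_neg_ham]

theorem ph_pow_hasDerivAt (c : ℝ) (m : ℕ) (s : ℝ) :
    HasDerivAt (fun s => (c * s) ^ (m + 1) / ((m + 1).factorial : ℝ))
      (c * ((c * s) ^ m / (m.factorial : ℝ))) s := by
  have h1 : HasDerivAt (fun s : ℝ => c * s) c s := by
    simpa using (hasDerivAt_id s).const_mul c
  have h2 := (h1.pow (m + 1)).div_const ((m + 1).factorial : ℝ)
  refine h2.congr_deriv ?_
  have h3 : (((m + 1).factorial : ℕ) : ℝ) = (m + 1 : ℝ) * (m.factorial : ℝ) := by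
    rw [Nat.factorial_succ]; push_cast; ring
  have h4 : (m.factorial : ℝ) ≠ 0 := by exact_mod_cast m.factorial_ne_zero
  have h5 : (m + 1 : ℝ) ≠ 0 := by positivity
  rw [h3]
  push_cast
  field_simp

/-- **Lieb-Robinson bound**, abstract form.  `N i` contains all the terms which do not commute
with `h i`; `d` is a distance to `B` measured in steps; `A` is any element which commutes with
the terms outside `NA`. -/
theorem ph_LR {ι : Type*} [Fintype ι] [DecidableEq ι] (h : ι → 𝔸)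
    (hsa : ∀ i, IsSelfAdjoint (h i)) {J : ℝ} (hJ : ∀ i, ‖h i‖ ≤ J) (hJ0 : 0 ≤ J)
    (N : ι → Finset ι) {g : ℕ} (hN : ∀ i, (N i).card ≤ g)
    (hcomm : ∀ i j, j ∉ N i → Commute (h i) (h j)) (B : 𝔸) (d : ι → ℕ)
    (hd0 : ∀ i, 1 ≤ d i → Commute (h i) B) (hd1 : ∀ i j, j ∈ N i → d i ≤ d j + 1) (m : ℕ) :
    ∀ (A : 𝔸) (NA : Finset ι), NA.card ≤ g → (∀ j, j ∉ NA → Commute A (h j)) →
      (1 ≤ m → Commute A B) → (∀ j ∈ NA, m ≤ d j + 1) → ∀ T : ℝ, 0 ≤ T →
      ‖phTau (∑ i, h i) T A * B - B * phTau (∑ i, h i) T A‖ ≤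
        2 * ‖A‖ * (‖B‖ * ((2 * g * J * T) ^ m / (m.factorial : ℝ))) := by
  have hH : IsSelfAdjoint (∑ i, h i) := by
    rw [isSelfAdjoint_iff, star_sum]
    exact Finset.sum_congr rfl fun i _ => (hsa i).star_eq
  induction m with
  | zero =>
    intro A NA _ _ _ _ T _
    have h1 := ph_comm_norm_le (phTau (∑ i, h i) T A) B
    rw [phTau_norm hH] at h1
    simpa [mul_assoc] using h1
  | succ m ih =>
    intro A NA hc hA hAB hd T hT
    have hsplit : (∑ i, h i) = (∑ i ∈ univ \ NA, h i) + ∑ i ∈ NA, h i :=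
      (Finset.sum_sdiff (Finset.subset_univ NA)).symm
    have hK : IsSelfAdjoint (∑ i ∈ univ \ NA, h i) := by
      rw [isSelfAdjoint_iff, star_sum]
      exact Finset.sum_congr rfl fun i _ => (hsa i).star_eq
    have hV : IsSelfAdjoint (∑ i ∈ NA, h i) := by
      rw [isSelfAdjoint_iff, star_sum]
      exact Finset.sum_congr rfl fun i _ => (hsa i).star_eq
    have hAK : Commute A (∑ i ∈ univ \ NA, h i) :=
      Commute.sum_right _ _ _ fun i hi => hA i (Finset.mem_sdiff.1 hi).2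
    have key := ph_step (A := A) (B := B) hK hV hAK (hAB (Nat.succ_le_succ (Nat.zero_le m)))
      (φ := fun s => ‖B‖ * ((2 * g * J * s) ^ (m + 1) / ((m + 1).factorial : ℝ)))
      (φ' := fun s => ‖B‖ * (2 * g * J * ((2 * g * J * s) ^ m / (m.factorial : ℝ)))) (T := T) hT
      (fun s => (ph_pow_hasDerivAt (2 * g * J) m s).const_mul ‖B‖) (by simp) ?_
    · rw [← hsplit] at key
      exact key
    · intro s hs0 hsT
      rw [← hsplit, phTau_sum, Finset.sum_mul, Finset.mul_sum, ← Finset.sum_sub_distrib]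
      have hterm : ∀ j ∈ NA, ‖phTau (∑ i, h i) s (h j) * B - B * phTau (∑ i, h i) s (h j)‖ ≤
          2 * J * (‖B‖ * ((2 * g * J * s) ^ m / (m.factorial : ℝ))) := fun j hj => by
        have h1 := ih (h j) (N j) (hN j) (fun k hk => hcomm j k hk)
          (fun hm => hd0 j (by have := hd j hj; omega))
          (fun k hk => by have := hd j hj; have := hd1 j k hk; omega) s hs0
        refine h1.trans (mul_le_mul_of_nonneg_right ?_ (by positivity))
        exact mul_le_mul_of_nonneg_left (hJ j) (by norm_num)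
      calc ‖∑ j ∈ NA, (phTau (∑ i, h i) s (h j) * B - B * phTau (∑ i, h i) s (h j))‖ ≤
          ∑ j ∈ NA, ‖phTau (∑ i, h i) s (h j) * B - B * phTau (∑ i, h i) s (h j)‖ :=
            norm_sum_le _ _
        _ ≤ ∑ j ∈ NA, 2 * J * (‖B‖ * ((2 * g * J * s) ^ m / (m.factorial : ℝ))) :=
            Finset.sum_le_sum hterm
        _ = NA.card * (2 * J * (‖B‖ * ((2 * g * J * s) ^ m / (m.factorial : ℝ)))) := by
            rw [Finset.sum_const, nsmul_eq_mul]
        _ ≤ g * (2 * J * (‖B‖ * ((2 * g * J * s) ^ m / (m.factorial : ℝ)))) := by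
            refine mul_le_mul_of_nonneg_right ?_ (by positivity)
            exact_mod_cast hc
        _ = ‖B‖ * (2 * g * J * ((2 * g * J * s) ^ m / (m.factorial : ℝ))) := by ring

/-- Lieb-Robinson for all times. -/
theorem ph_LR_abs {ι : Type*} [Fintype ι] [DecidableEq ι] (h : ι → 𝔸)
    (hsa : ∀ i, IsSelfAdjoint (h i)) {J : ℝ} (hJ : ∀ i, ‖h i‖ ≤ J) (hJ0 : 0 ≤ J)
    (N : ι → Finset ι) {g : ℕ} (hN : ∀ i, (N i).card ≤ g)
    (hcomm : ∀ i j, j ∉ N i → Commute (h i) (h j)) (B : 𝔸) (d : ι → ℕ)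
    (hd0 : ∀ i, 1 ≤ d i → Commute (h i) B) (hd1 : ∀ i j, j ∈ N i → d i ≤ d j + 1) (m : ℕ)
    (A : 𝔸) (NA : Finset ι) (hc : NA.card ≤ g) (hA : ∀ j, j ∉ NA → Commute A (h j))
    (hAB : 1 ≤ m → Commute A B) (hd : ∀ j ∈ NA, m ≤ d j + 1) (T : ℝ) :
    ‖phTau (∑ i, h i) T A * B - B * phTau (∑ i, h i) T A‖ ≤
        2 * ‖A‖ * (‖B‖ * ((2 * g * J * |T|) ^ m / (m.factorial : ℝ))) := by
  rcases le_total 0 T with hT | hT
  · rw [abs_of_nonneg hT]
    exact ph_LR h hsa hJ hJ0 N hN hcomm B d hd0 hd1 m A NA hc hA hAB hd T hT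
  · rw [abs_of_nonpos hT]
    have h1 := ph_LR (fun i => -(h i)) (fun i => (hsa i).neg) (J := J)
      (fun i => by rw [norm_neg]; exact hJ i) hJ0 N hN
      (fun i j hij => (hcomm i j hij).neg_left.neg_right) B d
      (fun i hi => (hd0 i hi).neg_left) hd1 m A NA hc (fun j hj => (hA j hj).neg_right) hAB hd
      (-T) (by linarith)
    rw [Finset.sum_neg_distrib, phTau_neg_ham, neg_neg] at h1
    exact h1

/-- **Duhamel**: comparison of two dynamics. -/
theorem ph_duhamel {K V A : 𝔸} (hK : IsSelfAdjoint K) (hV : IsSelfAdjoint V)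
    {φ φ' : ℝ → ℝ} {T : ℝ} (hT : 0 ≤ T)
    (hφ : ∀ s, HasDerivAt φ (φ' s) s) (hφ0 : φ 0 = 0)
    (hb : ∀ s, 0 ≤ s → s ≤ T → ‖phTau K s A * V - V * phTau K s A‖ ≤ φ' s) :
    ‖phTau (K + V) T A - phTau K T A‖ ≤ φ T := by
  set H := K + V with hHdef
  have hH : IsSelfAdjoint H := hK.add hV
  let f : ℝ → 𝔸 := fun s => phU H (-s) * phTau K s A * phU H s - A
  let f' : ℝ → 𝔸 := fun s =>
    Complex.I • (phU H (-s) * (phTau K s A * V - V * phTau K s A) * phU H s)
  have hf : ∀ s, HasDerivAt f (f' s) s := fun s => by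
    have h1 := (((phU_neg_hasDerivAt H s).mul (phTau_hasDerivAt' K A s)).mul
      (phU_hasDerivAt' H s)).sub_const A
    refine h1.congr_deriv ?_
    simp only [f', Pi.mul_apply]
    have e : ∀ (a b X : 𝔸), -(Complex.I • (a * (K + V))) * X * b +
        a * (Complex.I • (K * X - X * K)) * b + a * X * (Complex.I • ((K + V) * b)) =
        Complex.I • (a * (X * V - V * X) * b) := fun a b X => by
      simp only [mul_sub, sub_mul, mul_add, add_mul, smul_sub, smul_add, smul_mul_assoc, neg_mul,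
        mul_neg, mul_smul_comm, mul_assoc, neg_add]
      abel
    rw [add_mul, ← hHdef] at *
    rw [hHdef]
    exact e _ _ _
  have hf0 : f 0 = 0 := by
    simp only [f]
    rw [neg_zero, phU_zero, phTau_zero_time, one_mul, mul_one, sub_self]
  have hfb : ∀ s, 0 ≤ s → s ≤ T → ‖f' s‖ ≤ φ' s := fun s h0 hs => by
    simp only [f']
    rw [norm_smul, Complex.norm_I, one_mul, phU_mul_norm hH, phU_norm_mul hH]
    exact hb s h0 hs
  have hmv := ph_mvt hT hf hφ hfb hf0 hφ0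
  have he : phTau H T A - phTau K T A = -(phU H T * f T * phU H (-T)) := by
    have e1 : phU H T * (phU H (-T) * phTau K T A * phU H T) * phU H (-T) = phTau K T A := by
      calc phU H T * (phU H (-T) * phTau K T A * phU H T) * phU H (-T) =
          (phU H T * phU H (-T)) * phTau K T A * (phU H T * phU H (-T)) := by
            simp only [mul_assoc]
        _ = _ := by rw [phU_mul_neg, one_mul, mul_one]
    simp only [f]
    rw [mul_sub, sub_mul, e1, phTau]
    abel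
  rw [he, norm_neg, phU_mul_norm hH, phU_norm_mul hH]
  exact hmv

/-- two nested Hamiltonians: the additional terms `S` are at least `m` steps away from `A` -/
theorem ph_nested {ι : Type*} [Fintype ι] [DecidableEq ι] (h : ι → 𝔸)
    (hsa : ∀ i, IsSelfAdjoint (h i)) {J : ℝ} (hJ : ∀ i, ‖h i‖ ≤ J) (hJ0 : 0 ≤ J)
    {κ : Type*} (S : Finset κ) (k : κ → 𝔸) (hk : ∀ i, IsSelfAdjoint (k i))
    (hkJ : ∀ i, ‖k i‖ ≤ J)
    (N : ι → Finset ι) {g : ℕ} (hN : ∀ i, (N i).card ≤ g)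
    (hcomm : ∀ i j, j ∉ N i → Commute (h i) (h j)) (d : κ → ι → ℕ)
    (hd0 : ∀ b ∈ S, ∀ i, 1 ≤ d b i → Commute (h i) (k b))
    (hd1 : ∀ b ∈ S, ∀ i j, j ∈ N i → d b i ≤ d b j + 1) (m : ℕ)
    (A : 𝔸) (NA : Finset ι) (hc : NA.card ≤ g) (hA : ∀ j, j ∉ NA → Commute A (h j))
    (hAB : 1 ≤ m → ∀ b ∈ S, Commute A (k b)) (hd : ∀ b ∈ S, ∀ j ∈ NA, m ≤ d b j + 1) (T : ℝ)
    (hT : 0 ≤ T) :
    ‖phTau (∑ i, h i + ∑ b ∈ S, k b) T A - phTau (∑ i, h i) T A‖ ≤
      S.card * (2 * ‖A‖ * J * T * ((2 * g * J * T) ^ m / (m.factorial : ℝ))) := by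
  have hK : IsSelfAdjoint (∑ i, h i) := by
    rw [isSelfAdjoint_iff, star_sum]
    exact Finset.sum_congr rfl fun i _ => (hsa i).star_eq
  have hV : IsSelfAdjoint (∑ b ∈ S, k b) := by
    rw [isSelfAdjoint_iff, star_sum]
    exact Finset.sum_congr rfl fun i _ => (hk i).star_eq
  have key := ph_duhamel (A := A) hK hV
    (φ := fun s => s * (S.card * (2 * ‖A‖ * J * ((2 * g * J * T) ^ m / (m.factorial : ℝ)))))
    (φ' := fun s => S.card * (2 * ‖A‖ * J * ((2 * g * J * T) ^ m / (m.factorial : ℝ))))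
    (T := T) hT (fun s => ((hasDerivAt_id s).mul_const
      ((S.card : ℝ) * (2 * ‖A‖ * J * ((2 * g * J * T) ^ m / (m.factorial : ℝ))))).congr_deriv
        (one_mul _)) (by simp) ?_
  · refine key.trans (le_of_eq ?_)
    ring
  · intro s hs0 hsT
    rw [Finset.mul_sum, Finset.sum_mul, ← Finset.sum_sub_distrib]
    have hterm : ∀ b ∈ S, ‖phTau (∑ i, h i) s A * k b - k b * phTau (∑ i, h i) s A‖ ≤
        2 * ‖A‖ * J * ((2 * g * J * T) ^ m / (m.factorial : ℝ)) := fun b hb => by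
      have h1 := ph_LR h hsa hJ hJ0 N hN hcomm (k b) (d b) (hd0 b hb) (hd1 b hb) m A NA hc hA
        (fun hm => hAB hm b hb) (hd b hb) s hs0
      refine h1.trans ?_
      have h2 : (2 * g * J * s) ^ m ≤ (2 * g * J * T) ^ m := by
        apply pow_le_pow_left₀ (by positivity)
        exact mul_le_mul_of_nonneg_left hsT (by positivity)
      have h3 : ‖k b‖ * ((2 * g * J * s) ^ m / (m.factorial : ℝ)) ≤
          J * ((2 * g * J * T) ^ m / (m.factorial : ℝ)) := by
        apply mul_le_mul (hkJ b) _ (by positivity) hJ0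
        exact div_le_div_of_nonneg_right h2 (by positivity)
      calc 2 * ‖A‖ * (‖k b‖ * ((2 * g * J * s) ^ m / (m.factorial : ℝ))) ≤
          2 * ‖A‖ * (J * ((2 * g * J * T) ^ m / (m.factorial : ℝ))) :=
            mul_le_mul_of_nonneg_left h3 (by positivity)
        _ = _ := by ring
    calc ‖∑ b ∈ S, (phTau (∑ i, h i) s A * k b - k b * phTau (∑ i, h i) s A)‖ ≤
        ∑ b ∈ S, ‖phTau (∑ i, h i) s A * k b - k b * phTau (∑ i, h i) s A‖ := norm_sum_le _ _
      _ ≤ ∑ b ∈ S, 2 * ‖A‖ * J * ((2 * g * J * T) ^ m / (m.factorial : ℝ)) :=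
          Finset.sum_le_sum hterm
      _ = _ := by rw [Finset.sum_const, nsmul_eq_mul]

end lr

end Vale.Agent.P356.PH
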