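import Vale.Agent.P356.PH.DD
import Vale.Agent.P356.PH.DDg
import Vale.Agent.P356.PH.StepAbs

/-!
P5: second order perturbation of a ground state expectation.
-/

set_option linter.all false

namespace Vale.Agent.P356.PH

open Matrix Finset Vale.Agent.P356 Vale.Agent.P356.SV Vale.Agent.P356.Path
open scoped BigOperators ComplexOrder Kronecker Matrix.Norms.L2Operator

theorem step_expect {Δ : ℝ} {w : ℝ → ℝ} (hΔ : 0 < Δ) (hw : IsFilter Δ w) (K : ℝ) :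
    ∃ C : ℝ, 0 ≤ C ∧ ∀ (N : Type) [Fintype N] [DecidableEq N] (H H' : Matrix N N ℂ) (E E' : ℝ)
      (Ω Ω' : N → ℂ), H.IsHermitian → H'.IsHermitian → ‖H‖ ≤ K → ‖H' - H‖ ≤ Δ / 4 →
      GappedGround H Δ E Ω → GappedGround H' Δ E' Ω' → ∀ G : Matrix N N ℂ, G.IsHermitian →
      (star Ω' ⬝ᵥ (G *ᵥ Ω')).re ≤ (star Ω ⬝ᵥ (G *ᵥ Ω)).re +
        (star Ω ⬝ᵥ ((Complex.I • (G * DD w H (H' - H) - DD w H (H' - H) * G)) *ᵥ Ω)).re +
        C * ‖G‖ * ‖H' - H‖ ^ 2 := by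
  have hM : 0 ≤ ∫ t, |t| * |w t| :=
    MeasureTheory.integral_nonneg fun t => mul_nonneg (abs_nonneg _) (abs_nonneg _)
  refine ⟨6 * (∫ t, |t| * |w t|) ^ 2 + 8 * (∫ t, |t| * |w t|) / Δ, by positivity, ?_⟩
  intro N _ _ H H' E E' Ω Ω' hH hH' _ hδ h0 h1 G hG
  exact p5_step hΔ hM le_rfl hδ hH hH' (DD_herm hw hH (hH'.sub hH)) hG
    (DD_norm hw hH (H' - H)) h0 h1 (DD_ground hΔ hw hH (H' - H) h0)

end Vale.Agent.P356.PH
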