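import Vale.Agent.P356.PH.Act
import Vale.Agent.P356.PH.Iter
import Vale.Agent.P356.PH.Filter
import Vale.Agent.P356.PH.Comm
import Vale.Agent.P356.PH.Gibbs
import Vale.Agent.P356.PH.Step

/-!
P7c: the change of the entropy along a gapped path.
-/

set_option linter.all false

namespace Vale.Agent.P356.PH

open Matrix Finset Vale.Agent.P356 Vale.Agent.P356.SV Vale.Agent.P356.Path
open scoped BigOperators ComplexOrder Kronecker Matrix.Norms.L2Operator

section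

theorem pl_terms_sub {L q R : ℕ} {J δ : ℝ} {g g' : Finset (Site L) → Op (Site L) q}
    (hg : Terms L q R J g) (hg' : Terms L q R J g') (hd : ∀ X, OpNormLe (g' X - g X) δ) :
    Terms L q R δ (fun X => g' X - g X) := by
  refine ⟨fun X => (hg'.herm X).sub (hg.herm X), fun X => act_sub (hg'.loc X) (hg.loc X), hd,
    fun X hX => ?_⟩
  by_cases h : g X = 0
  · refine hg'.range X fun h' => hX ?_
    show g' X - g X = 0
    rw [h, h', sub_zero]
  · exact hg.range X h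

/-- crude norm bound for a sum of terms -/
theorem pl_norm {L q R : ℕ} {J : ℝ} (hJ : 0 ≤ J) {g : Finset (Site L) → Op (Site L) q}
    (hg : Terms L q R J g) : ‖∑ X, g X‖ ≤ (2 : ℝ) ^ (L * L) * J := by
  refine (norm_sum_le _ _).trans ?_
  refine (Finset.sum_le_card_nsmul _ _ J (fun X _ => (opNormLe_iff hJ).mp (hg.norm X))).trans
    (le_of_eq ?_)
  rw [Finset.card_univ, Fintype.card_finset, Fintype.card_prod, Fintype.card_fin, nsmul_eq_mul]
  push_cast
  ring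

/-- P7c -/
theorem path_law (q R : ℕ) (hq : 1 ≤ q) (J Δ ℓ : ℝ) (hJ : 0 < J) (hΔ : 0 < Δ) (hℓ : 0 ≤ ℓ) :
    ∃ C : ℝ, 0 ≤ C ∧ ∀ (L : ℕ) (h : ℝ → Finset (Site L) → Op (Site L) q) (E : ℝ → ℝ)
      (Ω : ℝ → Conf (Site L) q → ℂ), GappedPath L q R J Δ ℓ h E Ω → ∀ A : Finset (Site L),
      entropyOf A (Ω 1) ≤ entropyOf A (Ω 0) + C * bdry A := by
  obtain ⟨w, hw⟩ := exists_filter Δ hΔ
  obtain ⟨C₁, hC₁, hcomm⟩ := comm_bound (R := R) (J := J) hq hJ.le hw
  refine ⟨C₁ * ℓ, by positivity, ?_⟩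
  intro L h E Ω hP A
  set K : ℝ := (2 : ℝ) ^ (L * L) * J with hK
  obtain ⟨C₂, hC₂, hstep⟩ := step_expect hΔ hw K
  set M : ℝ := (2 : ℝ) ^ (L * L) * ℓ with hM
  have hM0 : 0 ≤ M := by positivity
  set d : ℝ := (q : ℝ) ^ A.card with hd
  have hq1 : (1 : ℝ) ≤ q := by exact_mod_cast hq
  have hd1 : 1 ≤ d := one_le_pow₀ hq1
  obtain ⟨n0, hn0⟩ := exists_nat_ge (max (4 * M / Δ) d)
  refine it_main (fun t => entropyOf A (Ω t)) (C₁ * ℓ * bdry A) d (8 * (C₂ * M ^ 2)) (by positivity)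
    (by positivity) n0 ?_
  intro n hn hn1 k hk
  show entropyOf A (Ω (((k : ℝ) + 1) / n)) ≤ _
  have hn1' : (1 : ℝ) ≤ n := by exact_mod_cast hn1
  have hn0' : (0 : ℝ) < n := by linarith
  have hnn : max (4 * M / Δ) d ≤ n := hn0.trans (by exact_mod_cast hn)
  have hnM : 4 * M / Δ ≤ n := (le_max_left _ _).trans hnn
  have hnd : d ≤ n := (le_max_right _ _).trans hnn
  have hk' : (k : ℝ) + 1 ≤ n := by exact_mod_cast hk
  have hk0 : (0 : ℝ) ≤ k := Nat.cast_nonneg k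
  set s : ℝ := (k : ℝ) / n with hs
  set t : ℝ := ((k : ℝ) + 1) / n with ht
  have hs0 : 0 ≤ s := by positivity
  have hst : t - s = 1 / n := by
    rw [hs, ht]
    field_simp
    ring
  have ht1 : t ≤ 1 := by
    rw [ht, div_le_one hn0']
    exact hk'
  have hst' : s ≤ t := by
    have : 0 < 1 / (n : ℝ) := by positivity
    linarith
  have hgs := hP.terms s hs0 (hst'.trans ht1)
  have hgt := hP.terms t (hs0.trans hst') ht1
  have hΩs := hP.gap s hs0 (hst'.trans ht1)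
  have hΩt := hP.gap t (hs0.trans hst') ht1
  set δ : ℝ := 1 / n with hδ
  have hδ0 : 0 < δ := by positivity
  have hδ1 : δ ≤ 1 := by
    rw [hδ, div_le_one hn0']
    exact hn1'
  have hv : Terms L q R (ℓ * δ) (fun X => h t X - h s X) := by
    refine pl_terms_sub hgs hgt fun X => ?_
    have := hP.lip s t hs0 hst' ht1 X
    rwa [hst] at this
  have hsub : ∑ X, h t X - ∑ X, h s X = ∑ X, (h t X - h s X) := by
    rw [Finset.sum_sub_distrib]
  have hnorm : ‖∑ X, h t X - ∑ X, h s X‖ ≤ M * δ := by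
    rw [hsub]
    refine (pl_norm (by positivity) hv).trans (le_of_eq ?_)
    rw [hM]
    ring
  have hsmall : M * δ ≤ Δ / 4 := by
    rw [hδ, mul_one_div, div_le_iff₀ hn0']
    rw [div_le_iff₀ hΔ] at hnM
    linarith
  -- the regularisation
  set ε : ℝ := δ ^ 2 with hε
  have hε0 : 0 < ε := by positivity
  have hε1 : ε ≤ 1 := by
    rw [hε]
    exact pow_le_one₀ hδ0.le hδ1
  have hδd : δ * d ≤ 1 := by
    rw [hδ, one_div, inv_mul_le_iff₀ hn0']
    linarith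
  have hεd : ε * d ≤ 1 := by
    have h1 : ε * d = δ * (δ * d) := by
      rw [hε]
      ring
    rw [h1]
    exact mul_le_one₀ hδ1 (by positivity) hδd
  have hG := GG_herm A (Ω s) ε
  have e1 := gibbs hq A (Ω s) (Ω t) hΩs.1 hΩt.1 ε hε0
  have e2 := hstep (Conf (Site L) q) (∑ X, h s X) (∑ X, h t X) (E s) (E t) (Ω s) (Ω t)
    (hgs.herm_sum _) (hgt.herm_sum _) (pl_norm hJ.le hgs) (hnorm.trans hsmall) hΩs hΩt _ hG
  have e3 := GG_le hq A (Ω s) hΩs.1 ε hε0
  have e4 := GG_norm hq A (Ω s) hΩs.1 ε hε0 hε1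
  have e5 := hcomm L (h s) (fun X => h t X - h s X) (ℓ * δ) (by positivity) hgs hv (Ω s) hΩs.1 A ε
    hε0 hεd
  rw [← hsub] at e5
  have f1 : Real.log (1 + ε * d) ≤ d / (n : ℝ) ^ 2 := by
    have h1 : Real.log (1 + ε * d) ≤ (1 + ε * d) - 1 :=
      Real.log_le_sub_one_of_pos (by positivity)
    have h2 : ε * d = d / (n : ℝ) ^ 2 := by
      rw [hε, hδ]
      field_simp
    linarith
  have f2 : ‖GG A (Ω s) ε‖ ≤ 8 * Real.sqrt n := by
    refine e4.trans (le_trans ?_ (it_log n hn1))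
    refine Real.log_le_log (by positivity) ?_
    rw [div_le_iff₀ hε0]
    have h2 : 2 * (n : ℝ) ^ 2 * ε = 2 := by
      rw [hε, hδ]
      field_simp
    rw [h2]
    linarith
  have f3 : C₂ * ‖GG A (Ω s) ε‖ * ‖∑ X, h t X - ∑ X, h s X‖ ^ 2 ≤
      8 * (C₂ * M ^ 2) * Real.sqrt n / (n : ℝ) ^ 2 := by
    have h1 : ‖∑ X, h t X - ∑ X, h s X‖ ^ 2 ≤ (M * δ) ^ 2 :=
      pow_le_pow_left₀ (norm_nonneg _) hnorm 2
    calc C₂ * ‖GG A (Ω s) ε‖ * ‖∑ X, h t X - ∑ X, h s X‖ ^ 2 ≤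
        C₂ * (8 * Real.sqrt n) * (M * δ) ^ 2 := by
          refine mul_le_mul (mul_le_mul_of_nonneg_left f2 hC₂) h1 (by positivity) (by positivity)
      _ = _ := by
          rw [hδ]
          field_simp
  have f4 : C₁ * (ℓ * δ) * bdry A = C₁ * ℓ * bdry A / n := by
    rw [hδ]
    field_simp
  rw [f4] at e5
  show entropyOf A (Ω t) ≤ entropyOf A (Ω s) + C₁ * ℓ * bdry A / n + d / (n : ℝ) ^ 2 +
    8 * (C₂ * M ^ 2) * Real.sqrt n / (n : ℝ) ^ 2
  linarith

end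

end Vale.Agent.P356.PH
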