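import Mathlib.Analysis.Complex.Hadamard
import Mathlib.Analysis.Complex.Liouville
import Mathlib.Analysis.Complex.ExponentialBounds

/-!
Small incremental entangling: the three lines argument.
-/

set_option linter.all false

namespace Vale.Agent.P356.PH

open Finset Complex
open scoped BigOperators

variable {ι : Type*} [Fintype ι]

/-- a finite sum of exponentials -/
noncomputable def sieF (l : ι → ℝ) (t : ι → ι → ℂ) (z : ℂ) : ℂ :=
  ∑ i, ∑ j, cexp (z * (l i - l j)) * t i j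

theorem sieF_hasDerivAt (l : ι → ℝ) (t : ι → ι → ℂ) (z : ℂ) :
    HasDerivAt (sieF l t) (∑ i, ∑ j, cexp (z * (l i - l j)) * (l i - l j) * t i j) z := by
  unfold sieF
  refine HasDerivAt.fun_sum fun i _ => HasDerivAt.fun_sum fun j _ => ?_
  have h : HasDerivAt (fun z : ℂ => cexp (z * (l i - l j))) (cexp (z * (l i - l j)) * (l i - l j)) z := by
    have h1 : HasDerivAt (fun z : ℂ => z * ((l i : ℂ) - l j)) ((l i : ℂ) - l j) z := by
      simpa using (hasDerivAt_id z).mul_const ((l i : ℂ) - l j)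
    exact h1.cexp
  exact h.mul_const _

theorem sieF_diff (l : ι → ℝ) (t : ι → ι → ℂ) : Differentiable ℂ (sieF l t) :=
  fun z => (sieF_hasDerivAt l t z).differentiableAt

theorem sieF_deriv_zero (l : ι → ℝ) (t : ι → ι → ℂ) :
    deriv (sieF l t) 0 = ∑ i, ∑ j, ((l i : ℂ) - l j) * t i j := by
  rw [(sieF_hasDerivAt l t 0).deriv]
  simp

theorem sieF_bdd (l : ι → ℝ) (t : ι → ι → ℂ) (z : ℂ) (hz : |z.re| ≤ 1) :
    ‖sieF l t z‖ ≤ ∑ i, ∑ j, Real.exp |l i - l j| * ‖t i j‖ := by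
  unfold sieF
  refine (norm_sum_le _ _).trans (Finset.sum_le_sum fun i _ => (norm_sum_le _ _).trans
    (Finset.sum_le_sum fun j _ => ?_))
  rw [norm_mul, Complex.norm_exp]
  refine mul_le_mul_of_nonneg_right (Real.exp_le_exp.mpr ?_) (norm_nonneg _)
  have : (z * ((l i : ℂ) - l j)).re = z.re * (l i - l j) := by
    rw [← Complex.ofReal_sub, Complex.re_mul_ofReal]
  rw [this]
  refine (le_abs_self _).trans ?_
  rw [abs_mul]
  exact mul_le_of_le_one_left (abs_nonneg _) hz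

theorem sieF_strip (l : ι → ℝ) (t : ι → ι → ℂ) {a b u v : ℝ} (huv : u < v)
    (hu : -1 ≤ u) (hv : v ≤ 1)
    (ha : ∀ y : ℝ, ‖sieF l t (u + y * I)‖ ≤ a) (hb : ∀ y : ℝ, ‖sieF l t (v + y * I)‖ ≤ b)
    (z : ℂ) (hz1 : u ≤ z.re) (hz2 : z.re ≤ v) :
    ‖sieF l t z‖ ≤ a ^ (1 - (z.re - u) / (v - u)) * b ^ ((z.re - u) / (v - u)) := by
  refine HadamardThreeLines.norm_le_interp_of_mem_verticalClosedStrip' huv ⟨hz1, hz2⟩
    (sieF_diff l t).diffContOnCl ?_ ?_ ?_
  · refine ⟨∑ i, ∑ j, Real.exp |l i - l j| * ‖t i j‖, ?_⟩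
    rintro x ⟨w, hw, rfl⟩
    refine sieF_bdd l t w ?_
    have h1 : u ≤ w.re ∧ w.re ≤ v := hw
    rw [abs_le]
    constructor <;> linarith [h1.1, h1.2]
  · intro w hw
    have h1 : w.re = u := hw
    have := ha w.im
    rwa [← h1, Complex.re_add_im] at this
  · intro w hw
    have h1 : w.re = v := hw
    have := hb w.im
    rwa [← h1, Complex.re_add_im] at this

theorem sie_interp {τ B x : ℝ} (hτ : 0 < τ) (hB : 1 ≤ B) :
    τ ^ (1 - x) * (B * τ) ^ x = τ * B ^ x := by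
  have hB0 : 0 < B := by linarith
  rw [Real.mul_rpow hB0.le hτ.le]
  have : τ ^ (1 - x) * (B ^ x * τ ^ x) = (τ ^ (1 - x) * τ ^ x) * B ^ x := by ring
  rw [this, ← Real.rpow_add hτ]
  simp

/-- the three lines bound for the derivative at zero -/
theorem sie_analytic (l : ι → ℝ) (t : ι → ι → ℂ) {τ B : ℝ} (hτ : 0 < τ) (hB : 1 ≤ B)
    (h0 : ∀ y : ℝ, ‖sieF l t (y * I)‖ ≤ τ)
    (hp : ∀ y : ℝ, ‖sieF l t ((1 / 2 : ℝ) + y * I)‖ ≤ B * τ)
    (hm : ∀ y : ℝ, ‖sieF l t ((-(1 / 2) : ℝ) + y * I)‖ ≤ B * τ) :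
    ‖∑ i, ∑ j, ((l i : ℂ) - l j) * t i j‖ ≤ 6 * (1 + Real.log B) * τ := by
  have hlog : 0 ≤ Real.log B := Real.log_nonneg hB
  have hB0 : 0 < B := by linarith
  set r : ℝ := 1 / (2 * (1 + Real.log B)) with hr
  have hr0 : 0 < r := by positivity
  have hr1 : r ≤ 1 / 2 := by
    rw [hr]
    apply one_div_le_one_div_of_le (by norm_num)
    linarith
  have h0' : ∀ y : ℝ, ‖sieF l t ((0 : ℝ) + y * I)‖ ≤ τ := by
    intro y
    simpa using h0 y
  have key : ∀ z : ℂ, |z.re| ≤ r → ‖sieF l t z‖ ≤ τ * B ^ (2 * r) := by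
    intro z hz
    rw [abs_le] at hz
    rcases le_total 0 z.re with h | h
    · have h1 := sieF_strip l t (u := 0) (v := 1 / 2) (by norm_num) (by norm_num) (by norm_num)
        h0' hp z h (by linarith)
      rw [sie_interp hτ hB] at h1
      refine h1.trans (mul_le_mul_of_nonneg_left (Real.rpow_le_rpow_of_exponent_le hB ?_) hτ.le)
      have h2 : (z.re - 0) / (1 / 2 - 0) = 2 * z.re := by ring
      linarith
    · have h1 := sieF_strip l t (u := -(1 / 2)) (v := 0) (by norm_num) (by norm_num) (by norm_num)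
        hm h0' z (by linarith) h
      have h2 : (B * τ) ^ (1 - (z.re - -(1 / 2)) / (0 - -(1 / 2))) *
          τ ^ ((z.re - -(1 / 2)) / (0 - -(1 / 2))) = τ * B ^ (-(2 * z.re)) := by
        have := sie_interp (x := -(2 * z.re)) hτ hB
        rw [← this, mul_comm]
        congr 2 <;> ring
      rw [h2] at h1
      refine h1.trans (mul_le_mul_of_nonneg_left (Real.rpow_le_rpow_of_exponent_le hB ?_) hτ.le)
      linarith [hz.1]
  have h3 : ‖deriv (sieF l t) 0‖ ≤ (τ * B ^ (2 * r)) / r := by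
    refine norm_deriv_le_of_forall_mem_sphere_norm_le hr0 (sieF_diff l t).diffContOnCl ?_
    intro z hz
    refine key z ?_
    have h4 : ‖z‖ = r := by simpa using hz
    rw [← h4]
    exact Complex.abs_re_le_norm z
  rw [sieF_deriv_zero] at h3
  refine h3.trans ?_
  have h5 : B ^ (2 * r) ≤ Real.exp 1 := by
    rw [Real.rpow_def_of_pos hB0]
    apply Real.exp_le_exp.mpr
    rw [hr]
    have : Real.log B * (2 * (1 / (2 * (1 + Real.log B)))) = Real.log B / (1 + Real.log B) := by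
      field_simp
    rw [this, div_le_one (by linarith)]
    linarith
  have h6 : Real.exp 1 < 3 := by
    have := Real.exp_one_lt_d9
    linarith
  have h7 : (τ * B ^ (2 * r)) / r = τ * B ^ (2 * r) * (2 * (1 + Real.log B)) := by
    rw [hr]
    field_simp
  rw [h7]
  have h8 : τ * B ^ (2 * r) ≤ τ * 3 := mul_le_mul_of_nonneg_left (by linarith) hτ.le
  calc τ * B ^ (2 * r) * (2 * (1 + Real.log B)) ≤ τ * 3 * (2 * (1 + Real.log B)) :=
        mul_le_mul_of_nonneg_right h8 (by linarith)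
    _ = 6 * (1 + Real.log B) * τ := by ring

end Vale.Agent.P356.PH
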