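import Vale.Agent.P356.PH.SieA
import Vale.Agent.P356.SV.Ops

/-!
Small incremental entangling: functions of the reduced state and the Hilbert-Schmidt estimates.
-/

set_option linter.all false

namespace Vale.Agent.P356.PH

open Matrix Finset Vale.Agent.P356 Vale.Agent.P356.SV Vale.Agent.P356.Path
open scoped BigOperators ComplexOrder Kronecker

section hs
variable {α β γ : Type*} [Fintype α] [Fintype β] [Fintype γ]

/-- squared Hilbert-Schmidt norm -/
noncomputable def sieHs (P : Matrix α β ℂ) : ℝ := ∑ i, ∑ j, ‖P i j‖ ^ 2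

theorem sieHs_nonneg (P : Matrix α β ℂ) : 0 ≤ sieHs P := by
  unfold sieHs
  positivity

/-- Cauchy-Schwarz for the Hilbert-Schmidt product -/
theorem sie_trace_le (P Q : Matrix α β ℂ) :
    ‖(Pᴴ * Q).trace‖ ^ 2 ≤ sieHs P * sieHs Q := by
  have h1 : (Pᴴ * Q).trace = ∑ z : α × β, star (P z.1 z.2) * Q z.1 z.2 := by
    simp only [Matrix.trace, Matrix.diag_apply, Matrix.mul_apply, conjTranspose_apply]
    rw [Finset.sum_comm, Fintype.sum_prod_type]
  have h2 : ∀ R : Matrix α β ℂ, sieHs R = ∑ z : α × β, ‖R z.1 z.2‖ ^ 2 := by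
    intro R
    rw [Fintype.sum_prod_type]
    rfl
  have h3 : ‖(Pᴴ * Q).trace‖ ≤ ∑ z : α × β, ‖P z.1 z.2‖ * ‖Q z.1 z.2‖ := by
    rw [h1]
    refine (norm_sum_le _ _).trans (Finset.sum_le_sum fun z _ => ?_)
    rw [norm_mul, norm_star]
  calc ‖(Pᴴ * Q).trace‖ ^ 2 ≤ (∑ z : α × β, ‖P z.1 z.2‖ * ‖Q z.1 z.2‖) ^ 2 :=
        pow_le_pow_left₀ (norm_nonneg _) h3 2
    _ ≤ _ := by
        rw [h2, h2]
        exact Finset.sum_mul_sq_le_sq_mul_sq _ _ _

theorem sieHs_mul_left [DecidableEq α] {C : Matrix α α ℂ} (hC : Contr C) (P : Matrix α β ℂ) :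
    sieHs (C * P) ≤ sieHs P := by
  unfold sieHs
  rw [Finset.sum_comm, Finset.sum_comm (f := fun i j => ‖P i j‖ ^ 2)]
  exact Finset.sum_le_sum fun j _ => hC (fun i => P i j)

/-- bound for the action on rows -/
def sieRow (W : Matrix α β ℂ) (c : ℝ) : Prop :=
  ∀ v : α → ℂ, ∑ j, ‖(v ᵥ* W) j‖ ^ 2 ≤ c * ∑ i, ‖v i‖ ^ 2

theorem sieHs_mul_row {W : Matrix β γ ℂ} {c : ℝ} (hW : sieRow W c) (C : Matrix α β ℂ) :
    sieHs (C * W) ≤ c * sieHs C := by
  unfold sieHs
  rw [Finset.mul_sum]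
  exact Finset.sum_le_sum fun i _ => hW (fun j => C i j)

theorem sieRow_mul {A : Matrix α β ℂ} {B : Matrix β γ ℂ} {c : ℝ} (hc : 0 ≤ c)
    (hA : sieRow A 1) (hB : sieRow B c) : sieRow (A * B) c := by
  intro v
  rw [← vecMul_vecMul]
  refine (hB _).trans (mul_le_mul_of_nonneg_left ?_ hc)
  have := hA v
  rwa [one_mul] at this

theorem sieRow_of_contr {X : Matrix α α ℂ} (hX : Contr Xᴴ) : sieRow X 1 := by
  intro v
  have h1 := hX (star v)
  have h2 : Xᴴ *ᵥ star v = star (v ᵥ* X) := (star_vecMul X v).symm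
  rw [h2] at h1
  simpa using h1

theorem sieRow_transpose {Y : Matrix β β ℂ} (hY : Contr Y) : sieRow Yᵀ 1 := by
  intro v
  rw [vecMul_transpose, one_mul]
  exact hY v

end hs

section fn
variable {N α β : Type*} [Fintype N] [Fintype α] [Fintype β] [DecidableEq N] [DecidableEq α]
  [DecidableEq β]

/-- function of a spectral decomposition -/
noncomputable def sieOp (U : Matrix α α ℂ) (f : α → ℂ) : Matrix α α ℂ := U * diagonal f * Uᴴ

theorem sieOp_mul {U : Matrix α α ℂ} (hU : Uᴴ * U = 1) (f g : α → ℂ) :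
    sieOp U f * sieOp U g = sieOp U (fun i => f i * g i) := by
  unfold sieOp
  calc U * diagonal f * Uᴴ * (U * diagonal g * Uᴴ) =
      U * diagonal f * (Uᴴ * U) * diagonal g * Uᴴ := by simp only [Matrix.mul_assoc]
    _ = U * (diagonal f * diagonal g) * Uᴴ := by rw [hU, Matrix.mul_one, Matrix.mul_assoc U]
    _ = _ := by rw [diagonal_mul_diagonal]

theorem sieOp_conj (U : Matrix α α ℂ) (f : α → ℂ) :
    (sieOp U f)ᴴ = sieOp U (fun i => star (f i)) := by
  unfold sieOp
  rw [conjTranspose_mul, conjTranspose_mul, conjTranspose_conjTranspose,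
    diagonal_conjTranspose, Matrix.mul_assoc]
  rfl

theorem sieOp_one {U : Matrix α α ℂ} (hU : U * Uᴴ = 1) : sieOp U (fun _ => 1) = 1 := by
  unfold sieOp
  rw [diagonal_one, Matrix.mul_one, hU]

theorem sieOp_sum (U : Matrix α α ℂ) (f : α → ℂ) :
    sieOp U f = ∑ i, f i • sieOp U (Pi.single i 1) := by
  have h1 : diagonal f = ∑ i, f i • diagonal (Pi.single i (1 : ℂ)) := by
    ext a b
    simp only [Matrix.sum_apply, Matrix.smul_apply, Matrix.diagonal_apply, smul_eq_mul]
    by_cases h : a = b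
    · subst h
      simp [Pi.single_apply]
    · simp [h]
  unfold sieOp
  rw [h1, Finset.mul_sum, Finset.sum_mul]
  refine Finset.sum_congr rfl fun i _ => ?_
  rw [Matrix.mul_smul, Matrix.smul_mul]

theorem sieHs_op {U : Matrix α α ℂ} (hU : U * Uᴴ = 1) (f : α → ℂ) :
    sieHs (sieOp U f) ≤ ∑ i, ‖f i‖ ^ 2 := by
  have hU' : Uᴴ * U = 1 := mul_eq_one_comm.mp hU
  have hc : Contr U := by
    intro v
    refine le_of_eq ?_
    have := nsq_conj Uᴴ (by rw [conjTranspose_conjTranspose]; exact hU') v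
    rw [conjTranspose_conjTranspose] at this
    exact this
  have h1 : sieHs (sieOp U f) ≤ 1 * sieHs (U * diagonal f) := by
    unfold sieOp
    refine sieHs_mul_row (sieRow_of_contr ?_) _
    rw [conjTranspose_conjTranspose]
    exact hc
  have h2 : sieHs (U * diagonal f) ≤ sieHs (diagonal f) := sieHs_mul_left hc _
  have h3 : sieHs (diagonal f) = ∑ i, ‖f i‖ ^ 2 := by
    unfold sieHs
    refine Finset.sum_congr rfl fun i _ => ?_
    rw [Finset.sum_eq_single i]
    · rw [diagonal_apply_eq]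
    · intro j _ hj
      rw [diagonal_apply_ne _ (Ne.symm hj)]
      simp
    · intro h
      exact absurd (Finset.mem_univ i) h
  linarith

end fn

end Vale.Agent.P356.PH
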