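import Vale.Agent.P356.PH.SieB

/-!
Small incremental entangling: the estimate for a product operator.
-/

set_option linter.all false

namespace Vale.Agent.P356.PH

open Matrix Finset Vale.Agent.P356 Vale.Agent.P356.SV Vale.Agent.P356.Path
open scoped BigOperators ComplexOrder Kronecker

variable {N α β : Type*} [Fintype N] [Fintype α] [Fintype β] [DecidableEq N] [DecidableEq α]
  [DecidableEq β]

/-- amplitude matrix of a vector -/
def sieM (e : N ≃ α × β) (ψ : N → ℂ) : Matrix α β ℂ := fun a b => ψ (e.symm (a, b))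

theorem sieM_opL (e : N ≃ α × β) (A : Matrix α α ℂ) (ψ : N → ℂ) :
    sieM e (opL e A *ᵥ ψ) = A * sieM e ψ := by
  ext a b
  rw [sieM, opL_mulVec_apply, Matrix.mul_apply]
  rfl

theorem sieM_opR (e : N ≃ α × β) (Y : Matrix β β ℂ) (ψ : N → ℂ) :
    sieM e (opR e Y *ᵥ ψ) = sieM e ψ * Yᵀ := by
  ext a b
  rw [sieM, opR_mulVec_apply, Matrix.mul_apply]
  refine Finset.sum_congr rfl fun b' _ => ?_
  rw [transpose_apply, mul_comm]
  rfl

theorem sieM_dot (e : N ≃ α × β) (φ ψ : N → ℂ) :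
    star φ ⬝ᵥ ψ = ((sieM e φ)ᴴ * sieM e ψ).trace := by
  simp only [dotProduct, Pi.star_apply]
  rw [sum_equiv_prod e]
  simp only [Matrix.trace, Matrix.diag_apply, Matrix.mul_apply, conjTranspose_apply, sieM]
  exact Finset.sum_comm

theorem sieM_hs (e : N ≃ α × β) (ψ : N → ℂ) : sieHs (sieM e ψ) = nsq ψ := by
  unfold sieHs nsq
  rw [sum_equiv_prod e]
  rfl

theorem sieM_red (e : N ≃ α × β) (ψ : N → ℂ) :
    sieM e ψ * (sieM e ψ)ᴴ = redA (ψ ∘ e.symm) := by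
  ext a a'
  simp only [Matrix.mul_apply, conjTranspose_apply, sieM, redA, Function.comp_apply]

/-- rows of the rotated amplitude matrix -/
theorem sieRow_diag {M : Matrix α β ℂ} {s : α → ℝ}
    (hM : M * Mᴴ = diagonal (fun i => (s i : ℂ))) (g : α → ℂ) {c : ℝ}
    (hg : ∀ i, s i * ‖g i‖ ^ 2 ≤ c) : sieRow (diagonal g * M) c := by
  intro v
  set u : α → ℂ := v ᵥ* diagonal g with hu
  have hui : ∀ i, u i = v i * g i := fun i => by rw [hu, vecMul_diagonal]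
  have h1 : v ᵥ* (diagonal g * M) = u ᵥ* M := by rw [hu, vecMul_vecMul]
  rw [h1]
  have h2 : ((∑ j, ‖(u ᵥ* M) j‖ ^ 2 : ℝ) : ℂ) = ((∑ i, s i * ‖u i‖ ^ 2 : ℝ) : ℂ) := by
    have h3 : ((∑ j, ‖(u ᵥ* M) j‖ ^ 2 : ℝ) : ℂ) = (u ᵥ* M) ⬝ᵥ star (u ᵥ* M) := by
      rw [dotProduct]
      push_cast
      refine Finset.sum_congr rfl fun j _ => ?_
      rw [Pi.star_apply, RCLike.star_def, Complex.mul_conj']
    rw [h3, star_vecMul, ← dotProduct_mulVec, mulVec_mulVec, hM, dotProduct]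
    push_cast
    refine Finset.sum_congr rfl fun i _ => ?_
    rw [mulVec_diagonal, Pi.star_apply, RCLike.star_def, ← Complex.mul_conj']
    ring
  rw [Complex.ofReal_inj.mp h2, Finset.mul_sum]
  refine Finset.sum_le_sum fun i _ => ?_
  rw [hui, norm_mul, mul_pow]
  nlinarith [hg i, sq_nonneg ‖v i‖]

theorem sieRow_op {U : Matrix α α ℂ} (hU : U * Uᴴ = 1) {M : Matrix α β ℂ} {s : α → ℝ}
    (hM : M * Mᴴ = sieOp U (fun i => (s i : ℂ))) (g : α → ℂ) {c : ℝ} (hc : 0 ≤ c)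
    (hg : ∀ i, s i * ‖g i‖ ^ 2 ≤ c) : sieRow (sieOp U g * M) c := by
  have hU' : Uᴴ * U = 1 := mul_eq_one_comm.mp hU
  have h1 : sieOp U g * M = U * (diagonal g * (Uᴴ * M)) := by
    unfold sieOp
    simp only [Matrix.mul_assoc]
  rw [h1]
  refine sieRow_mul hc (sieRow_of_contr fun v => le_of_eq (nsq_conj U hU v)) (sieRow_diag ?_ g hg)
  rw [conjTranspose_mul, conjTranspose_conjTranspose]
  calc Uᴴ * M * (Mᴴ * U) = Uᴴ * (M * Mᴴ) * U := by simp only [Matrix.mul_assoc]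
    _ = (Uᴴ * U) * diagonal (fun i => (s i : ℂ)) * (Uᴴ * U) := by
        rw [hM, sieOp]
        simp only [Matrix.mul_assoc]
    _ = _ := by rw [hU', Matrix.one_mul, Matrix.mul_one]

/-- the estimate for a product operator -/
theorem sie_prod (e : N ≃ α × β) (ψ : N → ℂ) (hψ : nsq ψ = 1) {U : Matrix α α ℂ}
    (hU : U * Uᴴ = 1) {s : α → ℝ} (hs : redA (ψ ∘ e.symm) = sieOp U (fun i => (s i : ℂ)))
    (f g : α → ℂ) {c : ℝ} (hc : 0 ≤ c) (hf : ∑ i, ‖f i‖ ^ 2 ≤ 1)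
    (hg : ∀ i, s i * ‖g i‖ ^ 2 ≤ c) (X : Matrix α α ℂ) (hX : Contr Xᴴ) (Y : Matrix β β ℂ)
    (hY : Contr Y) :
    ‖star ψ ⬝ᵥ ((opL e (sieOp U f) * (opL e X * opR e Y) * opL e (sieOp U g)) *ᵥ ψ)‖ ^ 2 ≤ c := by
  have h1 : sieM e ((opL e (sieOp U f) * (opL e X * opR e Y) * opL e (sieOp U g)) *ᵥ ψ) =
      (sieOp U f * (X * (sieOp U g * sieM e ψ))) * Yᵀ := by
    simp only [← mulVec_mulVec]
    rw [sieM_opL, sieM_opL, sieM_opR, sieM_opL]
    simp only [Matrix.mul_assoc]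
  rw [sieM_dot e, h1]
  refine (sie_trace_le _ _).trans ?_
  rw [sieM_hs, hψ, one_mul]
  have h2 : sieHs (sieOp U f * (X * (sieOp U g * sieM e ψ)) * Yᵀ) ≤
      1 * sieHs (sieOp U f * (X * (sieOp U g * sieM e ψ))) :=
    sieHs_mul_row (sieRow_transpose hY) _
  have h3 : sieRow (X * (sieOp U g * sieM e ψ)) c :=
    sieRow_mul hc (sieRow_of_contr hX) (sieRow_op hU (by rw [sieM_red, hs]) g hc hg)
  have h4 := sieHs_mul_row h3 (sieOp U f)
  have h5 := sieHs_op hU f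
  nlinarith [sieHs_nonneg (sieOp U f)]

/-- matrix elements between the eigenprojections -/
noncomputable def sieT (e : N ≃ α × β) (ψ : N → ℂ) (U : Matrix α α ℂ) (T : Matrix N N ℂ)
    (i j : α) : ℂ :=
  star ψ ⬝ᵥ ((opL e (sieOp U (Pi.single i 1)) * T * opL e (sieOp U (Pi.single j 1))) *ᵥ ψ)

theorem sie_expand (e : N ≃ α × β) (ψ : N → ℂ) (U : Matrix α α ℂ) (T : Matrix N N ℂ)
    (f g : α → ℂ) :
    star ψ ⬝ᵥ ((opL e (sieOp U f) * T * opL e (sieOp U g)) *ᵥ ψ) =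
      ∑ i, ∑ j, f i * g j * sieT e ψ U T i j := by
  rw [sieOp_sum U f, sieOp_sum U g, opL_sum, opL_sum]
  simp only [opL_smul, Finset.sum_mul, Finset.mul_sum, Matrix.smul_mul, Matrix.mul_smul,
    Matrix.sum_mulVec, Matrix.smul_mulVec, dotProduct_sum, dotProduct_smul, smul_eq_mul, sieT]
  rw [Finset.sum_comm]
  refine Finset.sum_congr rfl fun i _ => Finset.sum_congr rfl fun j _ => ?_
  ring

theorem sieF_eq (e : N ≃ α × β) (ψ : N → ℂ) (U : Matrix α α ℂ) (T : Matrix N N ℂ) (l : α → ℝ)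
    (z : ℂ) :
    sieF l (sieT e ψ U T) z = star ψ ⬝ᵥ ((opL e (sieOp U (fun i => Complex.exp (z * l i))) * T *
      opL e (sieOp U (fun i => Complex.exp (-(z * l i))))) *ᵥ ψ) := by
  rw [sie_expand, sieF]
  refine Finset.sum_congr rfl fun i _ => Finset.sum_congr rfl fun j _ => ?_
  rw [← Complex.exp_add]
  congr 2
  ring

theorem sie_comm (e : N ≃ α × β) (ψ : N → ℂ) {U : Matrix α α ℂ} (hU : U * Uᴴ = 1)
    (T : Matrix N N ℂ) (l : α → ℝ) :
    ∑ i, ∑ j, ((l i : ℂ) - l j) * sieT e ψ U T i j =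
      star ψ ⬝ᵥ ((opL e (sieOp U (fun i => (l i : ℂ))) * T -
        T * opL e (sieOp U (fun i => (l i : ℂ)))) *ᵥ ψ) := by
  have h1 := sie_expand e ψ U T (fun i => (l i : ℂ)) (fun _ => 1)
  have h2 := sie_expand e ψ U T (fun _ => 1) (fun i => (l i : ℂ))
  rw [sieOp_one hU, opL_one] at h1 h2
  rw [Matrix.mul_one] at h1
  rw [Matrix.one_mul] at h2
  rw [Matrix.sub_mulVec, dotProduct_sub, h1, h2, ← Finset.sum_sub_distrib]
  refine Finset.sum_congr rfl fun i _ => ?_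
  rw [← Finset.sum_sub_distrib]
  refine Finset.sum_congr rfl fun j _ => ?_
  ring

end Vale.Agent.P356.PH
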